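import Mathlib

/-!
# Row 41, part B: Efron–Stein decomposition on a finite product — definitions

Everything lives on ONE space `G = ∀ i, V i`.
* `avg S f`   : average out the coordinates in `S`;
* `es T f`    : the Efron–Stein part `f^{=T}`;
* `proj F f`  : `∑_{T ∈ F} f^{=T}`;
* `res S s f` : freeze the coordinates in `S` at the values of `s`;
* `qq n T`    : the modulus `∏_{i ∈ T} n i`;  `cut n D = {T | q_T ≤ D}`;
* `lift n A L`: `(|G|/L)` times the push-forward of `1_A` to `∏ ZMod (n i)`.
-/

set_option autoImplicit false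
open Finset
open scoped BigOperators

namespace Crest.Agent.N41.ES

section General
variable {ι : Type} [Fintype ι] [DecidableEq ι] {V : ι → Type} [∀ i, Fintype (V i)]

/-- average out the coordinates in `S` -/
noncomputable def avg (S : Finset ι) (f : (∀ i, V i) → ℝ) : (∀ i, V i) → ℝ :=
  fun x => 𝔼 y : (∀ i, V i), f (S.piecewise y x)

/-- the Efron–Stein part `f^{=T}` -/
noncomputable def es (T : Finset ι) (f : (∀ i, V i) → ℝ) : (∀ i, V i) → ℝ :=
  fun x => ∑ U ∈ T.powerset, (-1 : ℝ) ^ (T \ U).card * avg Uᶜ f x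

/-- the sum of the Efron–Stein parts over a family of sets -/
noncomputable def proj (F : Finset (Finset ι)) (f : (∀ i, V i) → ℝ) : (∀ i, V i) → ℝ :=
  fun x => ∑ T ∈ F, es T f x

/-- freeze the coordinates in `S` at the values of `s` -/
def res (S : Finset ι) (s : ∀ i, V i) (f : (∀ i, V i) → ℝ) : (∀ i, V i) → ℝ :=
  fun x => f (S.piecewise s x)

/-- `f` depends only on the coordinates in `T` -/
def DepOn (T : Finset ι) (f : (∀ i, V i) → ℝ) : Prop :=
  ∀ x y : ∀ i, V i, (∀ i ∈ T, x i = y i) → f x = f y

/-- the modulus `q_T` -/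
def qq (n : ι → ℕ) (T : Finset ι) : ℕ := ∏ i ∈ T, n i


end General

section Lift
variable {ι : Type} [Fintype ι]

/-- reduction of an integer modulo all the moduli -/
def red (n : ι → ℕ) (a : ℤ) : ∀ i, ZMod (n i) := fun i => (a : ZMod (n i))

open Classical in
/-- `(|G|/L)` times the push-forward of `1_A` to `G = ∏ ZMod (n i)` -/
noncomputable def lift (n : ι → ℕ) (A : Finset ℤ) (L : ℝ) : (∀ i, ZMod (n i)) → ℝ :=
  fun x => (qq n univ : ℝ) / L * ((A.filter fun a => red n a = x).card : ℝ)

end Lift

end Crest.Agent.N41.ES
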