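import Crest.Agent.N41.ES.Op
import Crest.Agent.N41.Defs

/-!
# Row 41, part B: restrictions of Efron–Stein parts, conductors
-/

set_option autoImplicit false
open Finset
open scoped BigOperators

namespace Crest.Agent.N41.ES

section Res
variable {ι : Type} [DecidableEq ι] {V : ι → Type}

lemma res_empty (s : ∀ i, V i) (f : (∀ i, V i) → ℝ) : res ∅ s f = f := by
  funext x; simp [res]

lemma res_res (U W : Finset ι) (s t : ∀ i, V i) (f : (∀ i, V i) → ℝ) :
    res W t (res U s f) = res (U ∪ W) (U.piecewise s t) f := by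
  funext x
  refine congrArg f ?_
  funext i
  by_cases h1 : i ∈ U <;> by_cases h2 : i ∈ W <;> simp [Finset.piecewise, h1, h2]






variable [Fintype ι]

/-- a sum over all sets, split into the parts inside and outside `S` -/
lemma sum_split (S : Finset ι) (φ : Finset ι → ℝ) :
    ∑ W, φ W = ∑ U ∈ S.powerset, ∑ T, if Disjoint T S then φ (U ∪ T) else 0 := by
  simp only [← Finset.sum_filter]
  rw [← Finset.sum_product']
  symm
  refine Finset.sum_nbij' (fun z => z.1 ∪ z.2) (fun W => (W ∩ S, W \ S)) ?_ ?_ ?_ ?_ ?_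
  · simp
  · intro W _
    simp [Finset.sdiff_disjoint]
  · rintro ⟨U, T⟩ hz
    simp only [Finset.mem_product, Finset.mem_powerset, Finset.mem_filter, Finset.mem_univ,
      true_and] at hz
    have h2 := Finset.disjoint_left.1 hz.2
    refine Prod.ext ?_ ?_
    · ext i; simp only [Finset.mem_inter, Finset.mem_union]
      exact ⟨fun h => h.1.elim id fun h' => absurd h.2 (h2 h'), fun h => ⟨Or.inl h, hz.1 h⟩⟩
    · ext i; simp only [Finset.mem_sdiff, Finset.mem_union]
      exact ⟨fun h => h.1.elim (fun h' => absurd (hz.1 h') h.2) id, fun h => ⟨Or.inr h, h2 h⟩⟩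
  · intro W _
    ext i; simp only [Finset.mem_union, Finset.mem_inter, Finset.mem_sdiff]; tauto
  · intro z _; rfl

variable [∀ i, Fintype (V i)]

lemma res_avg_compl {U W T : Finset ι} (hW : W ⊆ U) (hT : Disjoint T U) (s : ∀ i, V i)
    (f : (∀ i, V i) → ℝ) : res U s (avg (W ∪ T)ᶜ f) = avg Tᶜ (res W s f) := by
  funext x
  refine Finset.expect_congr rfl fun y _ => congrArg f ?_
  funext i
  by_cases h1 : i ∈ W
  · simp [Finset.piecewise, h1, hW h1]
  · by_cases h2 : i ∈ T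
    · simp [Finset.piecewise, h1, h2, Finset.disjoint_left.1 hT h2]
    · simp [Finset.piecewise, h1, h2]

/-- restriction of an Efron–Stein part -/
lemma res_es {S U T : Finset ι} (hU : U ⊆ S) (hT : Disjoint T S) (s : ∀ i, V i)
    (f : (∀ i, V i) → ℝ) :
    res S s (es (U ∪ T) f) =
      fun x => ∑ W ∈ U.powerset, (-1 : ℝ) ^ (U \ W).card * es T (res W s f) x := by
  funext x
  have hd : Disjoint U T := (hT.mono_right hU).symm
  change es (U ∪ T) f (S.piecewise s x) = mob (fun W => es T (res W s f) x) U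
  rw [es_eq_mob, mob_union hd]
  refine mob_congr fun W hW => ?_
  rw [es_eq_mob]
  refine mob_congr fun T' hT' => ?_
  exact congrFun (res_avg_compl (hW.trans hU) (hT.mono_left hT') s f) x

/-- restriction of a multiplier -/
lemma res_op (S : Finset ι) (s : ∀ i, V i) (m : Finset ι → ℝ) (f : (∀ i, V i) → ℝ) :
    res S s (op m f) = fun x => ∑ U ∈ S.powerset, ∑ W ∈ U.powerset, (-1 : ℝ) ^ (U \ W).card *
      op (fun T => if Disjoint T S then m (U ∪ T) else 0) (res W s f) x := by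
  funext x
  change ∑ W, m W * res S s (es W f) x = _
  rw [sum_split S]
  refine Finset.sum_congr rfl fun U hU => ?_
  simp only [op, Finset.mul_sum]
  rw [Finset.sum_comm]
  refine Finset.sum_congr rfl fun T _ => ?_
  split_ifs with hT
  · rw [res_es (Finset.mem_powerset.1 hU) hT, Finset.mul_sum]
    exact Finset.sum_congr rfl fun W _ => by ring
  · simp

lemma abs_es_le {T : Finset ι} {f : (∀ i, V i) → ℝ} {B : ℝ} {x : ∀ i, V i}
    (h : ∀ U ⊆ T, |avg Uᶜ f x| ≤ B) : |es T f x| ≤ 2 ^ T.card * B := by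
  refine (Finset.abs_sum_le_sum_abs _ _).trans ?_
  have : ∀ U ∈ T.powerset, |(-1 : ℝ) ^ (T \ U).card * avg Uᶜ f x| ≤ B := fun U hU => by
    rw [abs_mul, abs_pow, abs_neg, abs_one, one_pow, one_mul]
    exact h U (Finset.mem_powerset.1 hU)
  refine (Finset.sum_le_card_nsmul _ _ _ this).trans ?_
  simp

end Res

section Cond
variable {ι : Type}

@[simp] lemma qq_empty (n : ι → ℕ) : qq n ∅ = 1 := by simp [qq]

@[simp] lemma qq_singleton (n : ι → ℕ) (i : ι) : qq n {i} = n i := by simp [qq]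

lemma qq_dvd (n : ι → ℕ) {U T : Finset ι} (h : U ⊆ T) : qq n U ∣ qq n T :=
  Finset.prod_dvd_prod_of_subset _ _ _ h

lemma one_le_qq {n : ι → ℕ} (hn : ∀ i, 1 ≤ n i) (T : Finset ι) : 1 ≤ qq n T :=
  Finset.one_le_prod' fun i _ => hn i

lemma qq_mono {n : ι → ℕ} (hn : ∀ i, 1 ≤ n i) {U T : Finset ι} (h : U ⊆ T) : qq n U ≤ qq n T :=
  Nat.le_of_dvd (one_le_qq hn T) (qq_dvd n h)

lemma pow_card_le_qq {n : ι → ℕ} {p : ℕ} (hn : ∀ i, p ≤ n i) (T : Finset ι) :
    p ^ T.card ≤ qq n T := Finset.pow_card_le_prod _ _ _ fun i _ => hn i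

lemma dvd_qq (n : ι → ℕ) {T : Finset ι} {i : ι} (hi : i ∈ T) : n i ∣ qq n T :=
  Finset.dvd_prod_of_mem _ hi

variable [DecidableEq ι]

lemma qq_union (n : ι → ℕ) {U T : Finset ι} (h : Disjoint U T) :
    qq n (U ∪ T) = qq n U * qq n T := Finset.prod_union h

lemma qq_union_le {n : ι → ℕ} (hn : ∀ i, 1 ≤ n i) (U T : Finset ι) :
    qq n (U ∪ T) ≤ qq n U * qq n T := by
  rw [← Finset.union_sdiff_self_eq_union, qq_union n Finset.disjoint_sdiff]
  exact Nat.mul_le_mul_left _ (qq_mono hn Finset.sdiff_subset)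

omit [DecidableEq ι] in
lemma qq_injective {n : ι → ℕ} (hp : ∀ i, (n i).Prime) (hinj : Function.Injective n) :
    Function.Injective (qq n) := by
  have key : ∀ U T : Finset ι, qq n U = qq n T → U ⊆ T := fun U T h i hi => by
    have h1 : n i ∣ qq n T := h ▸ dvd_qq n hi
    obtain ⟨j, hj, hij⟩ := (Prime.dvd_finsetProd_iff (hp i).prime _).1 h1
    rw [hinj ((Nat.prime_dvd_prime_iff_eq (hp i) (hp j)).1 hij)]
    exact hj
  exact fun U T h => Finset.Subset.antisymm (key U T h) (key T U h.symm)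

omit [DecidableEq ι] in
/-- a family of sets of conductor at most `y` has at most `y` members -/
lemma card_le_of_qq_le {n : ι → ℕ} (hn : ∀ i, 1 ≤ n i) (hinj : Function.Injective (qq n))
    {F : Finset (Finset ι)} {y : ℝ} (hy : 0 ≤ y) (hF : ∀ T ∈ F, (qq n T : ℝ) ≤ y) :
    (F.card : ℝ) ≤ y := by
  have h1 : F.card ≤ (Finset.Icc 1 ⌊y⌋₊).card :=
    Finset.card_le_card_of_injOn (qq n)
      (fun T hT => by
        simp only [Finset.coe_Icc, Set.mem_Icc]
        exact ⟨one_le_qq hn T, Nat.le_floor (hF T hT)⟩) hinj.injOn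
  rw [Nat.card_Icc, Nat.add_sub_cancel] at h1
  exact (Nat.cast_le.2 h1).trans (Nat.floor_le hy)

variable [Fintype ι]

lemma mem_low {n : ι → ℕ} {S T : Finset ι} {y : ℝ} :
    T ∈ low n S y ↔ Disjoint T S ∧ (qq n T : ℝ) ≤ y := by simp [low]


lemma low_mono (n : ι → ℕ) (S : Finset ι) {y y' : ℝ} (h : y ≤ y') : low n S y ⊆ low n S y' :=
  fun _ hT => mem_low.2 ⟨(mem_low.1 hT).1, (mem_low.1 hT).2.trans h⟩

variable {V : ι → Type} [∀ i, Fintype (V i)]

/-- the `3^|S|` formula -/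
lemma res_proj_low {n : ι → ℕ} (hn : ∀ i, 1 ≤ n i) (S : Finset ι) (s : ∀ i, V i) (y : ℝ)
    (f : (∀ i, V i) → ℝ) :
    res S s (proj (low n ∅ y) f) = fun x => ∑ U ∈ S.powerset, ∑ W ∈ U.powerset,
      (-1 : ℝ) ^ (U \ W).card * proj (low n S (y / qq n U)) (res W s f) x := by
  rw [proj_eq_op, res_op]
  funext x
  refine Finset.sum_congr rfl fun U hU => Finset.sum_congr rfl fun W _ => ?_
  rw [proj_eq_op]
  congr 2
  funext T
  by_cases hT : Disjoint T S
  · have hd : Disjoint U T := (hT.mono_right (Finset.mem_powerset.1 hU)).symm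
    have hq : (0 : ℝ) < qq n U := by exact_mod_cast one_le_qq hn U
    simp only [hT, if_true, mem_low, Finset.disjoint_empty_right, true_and, qq_union n hd,
      Nat.cast_mul, le_div_iff₀ hq, mul_comm]
  · simp [hT, mem_low]

variable [∀ i, Nonempty (V i)]

lemma avg_proj_low (n : ι → ℕ) (S : Finset ι) (y : ℝ) (f : (∀ i, V i) → ℝ) :
    avg S (proj (low n ∅ y) f) = proj (low n S y) f := by
  rw [proj_eq_op, avg_op, proj_eq_op]
  congr 1
  funext T
  by_cases hT : Disjoint T S <;> simp [hT, mem_low]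

lemma proj_avg_of_disjoint {F : Finset (Finset ι)} {S : Finset ι} (h : ∀ T ∈ F, Disjoint T S)
    (f : (∀ i, V i) → ℝ) : proj F (avg S f) = proj F f := by
  rw [proj_eq_op, op_avg, proj_eq_op]
  congr 1
  funext T
  by_cases hT : T ∈ F
  · simp [hT, h T hT]
  · simp [hT]


omit [∀ i, Nonempty (V i)] in
lemma depOn_proj {F : Finset (Finset ι)} {W : Finset ι} (h : ∀ T ∈ F, T ⊆ W)
    (f : (∀ i, V i) → ℝ) : DepOn W (proj F f) :=
  DepOn.sum fun T hT => (depOn_es T f).mono (h T hT)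

omit [∀ i, Nonempty (V i)] in
/-- the Efron–Stein parts of a global function are bounded -/
lemma _root_.Crest.Agent.N41.Glob.abs_es_le {n : ι → ℕ} (hn : ∀ i, 1 ≤ n i) {y : ℝ} {f : (∀ i, V i) → ℝ}
    (h : Glob n y f) {T : Finset ι} (hT : (qq n T : ℝ) ≤ y) (x : ∀ i, V i) :
    |es T f x| ≤ 2 ^ T.card * 4 :=
  ES.abs_es_le fun U hU => h.bdd U (le_trans (by exact_mod_cast qq_mono hn hU) hT) x

omit [∀ i, Nonempty (V i)] in
lemma _root_.Crest.Agent.N41.Glob.mono {n : ι → ℕ} {y y' : ℝ} {f : (∀ i, V i) → ℝ} (h : Glob n y f) (hy : y' ≤ y) :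
    Glob n y' f :=
  ⟨fun U hU => h.bdd U (hU.trans hy), fun U s F hU hF =>
    h.bes U s F (hU.trans hy) fun T hT => ⟨(hF T hT).1, (hF T hT).2.trans hy⟩⟩

end Cond

end Crest.Agent.N41.ES
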