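import Crest.Agent.N41.Main.Basic
import Crest.Agent.N41.Local.Chess
import Crest.Agent.N41.Local.Defs
import Crest.Agent.N41.Local.Norm
import Crest.Agent.N41.ES.Lift
import Crest.Agent.N41.ES.Res

-- ▼ part N41/Main/Step
section

/-!
# Row 41, recursion: one step
-/

set_option autoImplicit false

namespace Crest.Agent.N41.Main

open Finset Polynomial
open scoped BigOperators
open Local (Om ptA ptB RP tens)
open ES (avg es proj res qq red lift)

section

variable {ι : Type} [Fintype ι] [DecidableEq ι]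

/-- the a priori bound in the model -/
def CrudeAt (D : ℕ) (q : ι → ℕ) [∀ i, NeZero (q i)] (ρ : ι → ℝ) (Z : ℝ) (K' : ℕ) (κ' : ℝ) :
    Prop :=
  ∀ ν : ∀ i, (Om D → ZMod (q i)) → ℝ, (∀ i, Law (ν i) (ρ i)) →
    ∀ f : (∀ i, ZMod (q i)) → ℝ, Glob q (Z ^ K') f →
      (Lam ν fun _ => proj (low q ∅ (Z ^ 2)) f) ≤ Z ^ (κ' / 2)

/-- the step in the model -/
def StepAt (D : ℕ) (q : ι → ℕ) [∀ i, NeZero (q i)] (ρ β : ι → ℝ) (Z : ℝ) (K K' : ℕ)
    (κ κ' : ℝ) : Prop :=
  ∀ (ν nf : ∀ i, (Om D → ZMod (q i)) → ℝ) (kap : ∀ i, ZMod (q i) → ℝ),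
    (∀ i, Law (ν i) (ρ i)) → (∀ i, Split (ν i) (nf i) (kap i) (ρ i) (β i)) →
    ∀ (f : Om D → (∀ i, ZMod (q i)) → ℝ) (Y : ℝ), (∀ ω, Glob q (Z ^ K') (f ω)) →
      Z ^ (-κ') ≤ Y →
      (∀ (ω : Om D) (S U : Finset ι) (s : ∀ i, ZMod (q i)), S.Nonempty → U ⊆ S →
        (qq q S : ℝ) ≤ Z →
        (Lam ν fun _ => proj (low q S (Z ^ 2)) (res U s (f ω))) ≤ Y * √(qq q S)) →
      (∀ (T : Finset ι) (sa sb : ∀ i, ZMod (q i)), (qq q T : ℝ) ≤ Z ^ (2 * 6 ^ D) →
        |𝔼 x, 𝔼 y, (f (ptA D) x * ind T sa x) * (f (ptB D) y * ind T sb y) *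
          proj (low q ∅ (Z ^ K)) (fun z => ∏ i, kap i (z i)) (y - x)| ≤ (Z ^ K) ^ (-κ)) →
      |Lam ν fun ω => proj (low q ∅ (Z ^ 2)) (f ω)| ≤ Y / 2

/-- the pair bound at scale `t` -/
def PairAt (pr : Bool) (h : ℤ[X]) (q : ι → ℕ) [∀ i, NeZero (q i)] (Cc κ₀ : ℝ) (W : ℕ)
    (N y t ε : ℝ) : Prop :=
  ∀ (r d lam : ℕ) (g : ℤ[X]), St pr h t r d lam g →
    ∃ (W₂ : ℕ) (c₀ : ℤ), 1 ≤ W₂ ∧ W₂ ≤ W ∧ (∀ i, Nat.Coprime W₂ (q i)) ∧
    ∀ (A Aa Ab : Finset ℤ) (x₀ : ℝ) (ca cb : ℤ) (ψ : ∀ i, ZMod (q i) → ℝ),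
      Free pr r d g A → Aa ⊆ A → Ab ⊆ A → InI Aa x₀ (N / (3 * t)) →
      InI Ab (x₀ + 2 * (N / (3 * t))) (N / (3 * t)) →
      (∀ a ∈ Aa, a ≡ ca [ZMOD W₂]) → (∀ b ∈ Ab, b ≡ cb [ZMOD W₂]) →
      cb - ca ≡ c₀ [ZMOD W₂] →
      (∀ i z, 0 ≤ ψ i z ∧ ψ i z ≤ Cc) → (∀ i, 𝔼 z, ker pr (q i) r d g z * ψ i z = 1) →
      (∀ i, OpBd (fun z => ker pr (q i) r d g z * ψ i z) ((q i : ℝ) ^ (-κ₀))) →
      ∀ (T : Finset ι) (sa sb : ∀ i, ZMod (q i)),
        |𝔼 x, 𝔼 x', (lift q Aa (N / (3 * t) / W₂) x * ind T sa x) *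
          (lift q Ab (N / (3 * t) / W₂) x' * ind T sb x') *
          proj (low q ∅ y) (fun z => ∏ i, ker pr (q i) r d g (z i) * ψ i (z i)) (x' - x)| ≤ ε

/-- the third of the interval and the residue class -/
noncomputable def cls (x₀ L : ℝ) (W : ℕ) (a : ℤ) : Fin 3 × ZMod W :=
  (if (a : ℝ) < x₀ + L then 0 else if (a : ℝ) < x₀ + 2 * L then 1 else 2, (a : ZMod W))

lemma inI_cls {A : Finset ℤ} {x₀ L : ℝ} (hA : InI A x₀ (3 * L)) (W : ℕ) (σ : Fin 3 × ZMod W) :
    InI (A.filter fun a => cls x₀ L W a = σ) (x₀ + ((σ.1 : ℕ) : ℝ) * L) L := by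
  intro a ha
  obtain ⟨ha', rfl⟩ := mem_filter.1 ha
  obtain ⟨h1, h2⟩ := hA a ha'
  unfold cls
  split_ifs with h3 h4
  · simp only [Fin.val_zero, Nat.cast_zero]; constructor <;> linarith
  · simp only [Fin.val_one, Nat.cast_one]; constructor <;> linarith
  · simp only [Fin.val_two, Nat.cast_ofNat]; constructor <;> linarith

lemma modEq_cls {A : Finset ℤ} {x₀ L : ℝ} {W : ℕ} [NeZero W] (σ : Fin 3 × ZMod W) :
    ∀ a ∈ A.filter fun a => cls x₀ L W a = σ, a ≡ (σ.2.val : ℤ) [ZMOD W] := by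
  intro a ha
  obtain ⟨-, rfl⟩ := mem_filter.1 ha
  rw [← ZMod.intCast_eq_intCast_iff]
  simp [cls]

lemma free_mono {pr : Bool} {r d : ℕ} {g : ℤ[X]} {A B : Finset ℤ} (h : Free pr r d g A)
    (hB : B ⊆ A) : Free pr r d g B := fun a ha b hb => h a (hB ha) b (hB hb)

variable {pr : Bool} {h : ℤ[X]} {D : ℕ} {q : ι → ℕ} [∀ i, NeZero (q i)] {Cc : ℝ} {ρ β : ι → ℝ}
  {N Z : ℝ}

lemma bound_mono {t Y Y' : ℝ} (hb : Bound pr h D q Cc ρ β N Z t Y) (hY : Y ≤ Y') :
    Bound pr h D q Cc ρ β N Z t Y' :=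
  fun r d lam g A x₀ ν h1 h2 h3 h4 => (hb r d lam g A x₀ ν h1 h2 h3 h4).trans hY

lemma bound_crude (hlift : LiftStmt) (hp : ∀ i, (q i).Prime) (hq : Function.Injective q)
    {K' : ℕ} {κ' t : ℝ} (hcr : CrudeAt D q ρ Z K' κ') (hZ : 2 ≤ Z)
    (ht : (Z ^ (K' + 1)) ^ 5 ≤ N / t) : Bound pr h D q Cc ρ β N Z t (Z ^ (κ' / 2)) := by
  intro r d lam g A x₀ ν _ hA _ hν
  have h2 : 2 ≤ Z ^ (K' + 1) := hZ.trans (le_self_pow₀ (by linarith) (by omega))
  have := hlift ι q hp hq A x₀ (N / t) (Z ^ (K' + 1)) 1 0 le_rfl (fun i => Nat.coprime_one_left _)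
    hA (fun a _ => Int.modEq_one) h2 (by simpa using ht)
  simp only [Nat.cast_one, div_one] at this
  exact hcr ν (fun i => (hν i).1) _
    (glob_mono this (pow_le_pow_right₀ (by linarith) (by omega)))

/-- **one step of the recursion** -/
lemma bound_step (hchess : ChessStmt) (hlift : LiftStmt) (hdesc : DescentStmt) (hD : 1 ≤ D)
    (hk : 1 ≤ h.natDegree) (hp : ∀ i, (q i).Prime) (hq : Function.Injective q) (hN : 0 < N)
    (hex : ExLaw pr h D q Cc ρ β) {K K' W : ℕ} {κ κ' κ₀ t Y : ℝ}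
    (hstep : StepAt D q ρ β Z K K' κ κ') (hρ : ∀ i, 0 ≤ ρ i ∧ ρ i ≤ (q i : ℝ) ^ (-κ₀))
    (hpair : PairAt pr h q Cc κ₀ W N (Z ^ K) t ((Z ^ K) ^ (-κ))) (hZ : 2 ≤ Z) (ht : 0 < t)
    (hL : (Z ^ (K' + 1)) ^ 5 * W ≤ N / (3 * t)) (hY : Z ^ (-κ') ≤ Y)
    (hind : ∀ m : ℕ, 1 ≤ m → (m : ℝ) ≤ Z → ∀ t' : ℝ, 3 * t ≤ t' →
      t' ≤ 3 * ((W * m : ℕ) : ℝ) ^ h.natDegree * t → Bound pr h D q Cc ρ β N Z t' (Y * √m)) :
    Bound pr h D q Cc ρ β N Z t ((1 - 1 / (18 * W)) * Y) := by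
  classical
  intro r d lam g A x₀ ν hst hA hfree hν
  obtain ⟨W₂, c₀, hW1, hW2, hcop, hpair⟩ := hpair r d lam g hst
  have : NeZero W₂ := ⟨by omega⟩
  have hY0 : 0 < Y := lt_of_lt_of_le (Real.rpow_pos_of_pos (by linarith) _) hY
  have hW0 : (0 : ℝ) < W₂ := by exact_mod_cast hW1
  set L := N / (3 * t) with hLdef
  have hA' : InI A x₀ (3 * L) := by
    have : 3 * L = N / t := by rw [hLdef]; field_simp
    rwa [this]
  set P : Fin 3 × ZMod W₂ → Finset ℤ := fun σ => A.filter fun a => cls x₀ L W₂ a = σ with hP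
  set f : Fin 3 × ZMod W₂ → (∀ i, ZMod (q i)) → ℝ := fun σ => lift q (P σ) (L / W₂) with hf
  have hlaw : ∀ i, Law (ν i) (ρ i) := fun i => (hν i).1
  -- fibres
  have hfib : ∀ σ (S U : Finset ι) (s : ∀ i, ZMod (q i)), U ⊆ S → (qq q S : ℝ) ≤ Z →
      (Lam ν fun _ => proj (low q S (Z ^ 2)) (res U s (f σ))) ≤ Y * √(qq q S) := by
    intro σ S U s hU hS
    have hS1 : 1 ≤ qq q S := Nat.one_le_iff_ne_zero.2 (prod_ne_zero_iff.2 fun i _ => (hp i).ne_zero)
    refine hdesc pr h D ι q Cc ρ β N Z t _ hD hk hp hq hN ht (by positivity) hex r d lam g (P σ)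
      _ ν W₂ _ S U s hst (free_mono hfree (filter_subset _ _)) (inI_cls hA' W₂ σ) hW1 hcop
      (modEq_cls σ) hν hU fun t' h1 h2 => hind _ hS1 hS t' h1 (h2.trans ?_)
    gcongr
  have hall : ∀ τ : Om D → Fin 3 × ZMod W₂,
      (Lam ν fun ω => proj (low q ∅ (Z ^ 2)) (f (τ ω))) ≤ Y := by
    intro τ
    refine (le_abs_self _).trans (chess_const hchess hD hlaw _ hY0 fun ω => ?_)
    have := hfib (τ ω) ∅ ∅ 0 Subset.rfl (by simp [qq]; linarith)
    simpa [res_empty, qq] using this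
  have hglob : ∀ σ, Glob q (Z ^ K') (f σ) := by
    intro σ
    have h2 : 2 ≤ Z ^ (K' + 1) := hZ.trans (le_self_pow₀ (by linarith) (by omega))
    refine glob_mono (hlift ι q hp hq (P σ) _ L (Z ^ (K' + 1)) W₂ _ hW1 hcop (inI_cls hA' W₂ σ)
      (modEq_cls σ) h2 (le_trans ?_ hL)) (pow_le_pow_right₀ (by linarith) (by omega))
    gcongr
  have hgood : ∀ τ : Om D → Fin 3 × ZMod W₂, (τ (ptA D)).1 = 0 → (τ (ptB D)).1 = 2 →
      (τ (ptB D)).2 - (τ (ptA D)).2 = (c₀ : ZMod W₂) →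
      (Lam ν fun ω => proj (low q ∅ (Z ^ 2)) (f (τ ω))) ≤ Y / 2 := by
    intro τ ha hb hc
    choose nf ψ hsp hψ using fun i => (hν i).2
    refine (le_abs_self _).trans (hstep ν nf _ hlaw hsp (fun ω => f (τ ω)) Y (fun ω => hglob _) hY
      (fun ω S U s _ hU hS => hfib _ S U s hU hS) fun T sa sb _ => ?_)
    refine hpair A (P (τ (ptA D))) (P (τ (ptB D))) x₀ _ _ ψ hfree (filter_subset _ _)
      (filter_subset _ _) ?_ ?_ (modEq_cls _) (modEq_cls _) ?_ hψ (fun i => (hsp i).kap_mean)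
      (fun i => opBd_mono (hsp i).op (hρ i).1 (hρ i).2) T sa sb
    · have := inI_cls hA' W₂ (τ (ptA D))
      rw [ha] at this
      simpa using this
    · have := inI_cls hA' W₂ (τ (ptB D))
      rw [hb] at this
      simpa using this
    · rw [← ZMod.intCast_eq_intCast_iff]
      push_cast
      simpa using hc
  -- expansion
  set c : ℝ := (3 * W₂ : ℝ)⁻¹ with hc
  have hsplit : lift q A (N / t) = fun x => ∑ σ, c * f σ x := by
    funext x
    refine lift_split q A (cls x₀ L W₂) _ _ c ?_ x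
    rw [hc, hLdef]; field_simp
  have hproj : proj (low q ∅ (Z ^ 2)) (lift q A (N / t)) =
      fun x => ∑ σ, c * proj (low q ∅ (Z ^ 2)) (f σ) x := by
    rw [hsplit, ES.proj_sum]
    simp only [ES.proj_smul]
  rw [hproj, lam_expand ν c fun σ => proj (low q ∅ (Z ^ 2)) (f σ)]
  set G := univ.filter fun τ : Om D → Fin 3 × ZMod W₂ =>
    (τ (ptA D)).1 = 0 ∧ (τ (ptB D)).1 = 2 ∧ (τ (ptB D)).2 - (τ (ptA D)).2 = (c₀ : ZMod W₂)
    with hG
  have hcard := card_good (ptA_ne_ptB hD) W₂ (c₀ : ZMod W₂)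
  rw [Local.card_Om, ← hG] at hcard
  have hcard' : ((3 * W₂ : ℝ)) ^ 6 ^ D ≤ 9 * W₂ * G.card := by exact_mod_cast hcard
  have hsum : ∑ τ : Om D → Fin 3 × ZMod W₂, (Lam ν fun ω => proj (low q ∅ (Z ^ 2)) (f (τ ω))) ≤
      (3 * W₂ : ℝ) ^ 6 ^ D * Y - G.card * (Y / 2) := by
    calc _ ≤ ∑ τ : Om D → Fin 3 × ZMod W₂, (Y - if τ ∈ G then Y / 2 else 0) := by
          refine sum_le_sum fun τ _ => ?_
          split_ifs with hτ
          · obtain ⟨-, h1, h2, h3⟩ := mem_filter.1 hτ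
            linarith [hgood τ h1 h2 h3]
          · simpa using hall τ
      _ = _ := by
          rw [sum_sub_distrib, sum_const, card_univ, Fintype.card_fun, Local.card_Om,
            sum_ite_mem, univ_inter, sum_const]
          simp [ZMod.card]
  rw [← mul_sum]
  have hR : (0 : ℝ) < (3 * W₂ : ℝ) ^ 6 ^ D := by positivity
  have hcR : c ^ 6 ^ D = ((3 * W₂ : ℝ) ^ 6 ^ D)⁻¹ := by rw [hc, inv_pow]
  rw [hcR, inv_mul_le_iff₀ hR]
  refine hsum.trans ?_
  have hWW : (W₂ : ℝ) ≤ W := by exact_mod_cast hW2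
  have h1 : (3 * W₂ : ℝ) ^ 6 ^ D * (1 / (18 * W)) ≤ G.card / 2 := by
    rw [mul_one_div, div_le_div_iff₀ (by linarith) (by norm_num)]
    have : (0 : ℝ) ≤ G.card := Nat.cast_nonneg _
    nlinarith
  nlinarith

end

end Crest.Agent.N41.Main
end

-- ▼ part N41/Main/Rec
section

/-!
# Row 41, recursion: the induction over scales and the start
-/

set_option autoImplicit false

namespace Crest.Agent.N41.Main

open Finset Polynomial
open scoped BigOperators
open Local (Om ptA ptB RP tens)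
open ES (avg es proj res qq red lift)

section

variable {ι : Type} [Fintype ι] [DecidableEq ι]
variable {pr : Bool} {h : ℤ[X]} {D : ℕ} {q : ι → ℕ} [∀ i, NeZero (q i)] {Cc : ℝ} {ρ β : ι → ℝ}
  {N Z : ℝ}

/-- **the induction over scales** -/
lemma bound_rec (hchess : ChessStmt) (hlift : LiftStmt) (hdesc : DescentStmt) (hD : 1 ≤ D)
    (hk : 1 ≤ h.natDegree) (hp : ∀ i, (q i).Prime) (hq : Function.Injective q) (hN : 0 < N)
    (hex : ExLaw pr h D q Cc ρ β) {K K' W e : ℕ} {κ κ' κ₀ γ : ℝ}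
    (hcr : CrudeAt D q ρ Z K' κ') (hstep : StepAt D q ρ β Z K K' κ κ')
    (hρ : ∀ i, 0 ≤ ρ i ∧ ρ i ≤ (q i : ℝ) ^ (-κ₀))
    (hpair : ∀ t : ℝ, 1 ≤ t → t ≤ Z ^ e →
      PairAt pr h q Cc κ₀ W N (Z ^ K) t ((Z ^ K) ^ (-κ)))
    (hZ : 3 ≤ Z) (hW : 1 ≤ W) (hWZ : (W : ℝ) ≤ Z) (hγ : 0 < γ) (hγk : h.natDegree * γ ≤ 1 / 2)
    (hγW : (1 - 1 / (18 * W)) * (3 * (W : ℝ) ^ h.natDegree) ^ γ ≤ 1) (hκ' : 0 < κ')
    (he : κ' ≤ e * γ) (hNZ : Z ^ (5 * (K' + 1) + (e + 2 * h.natDegree + 1)) ≤ N) (j : ℕ) :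
    ∀ t : ℝ, 1 ≤ t → Z ^ e ≤ 3 ^ j * t → t ≤ Z ^ (e + 2 * h.natDegree + 1) →
      Bound pr h D q Cc ρ β N Z t (t ^ γ * Z ^ (-(κ' / 2))) := by
  set k := h.natDegree with hkdef
  have hZ0 : 0 < Z := by linarith
  have hZ1 : 1 ≤ Z := by linarith
  have hW0 : (1 : ℝ) ≤ W := by exact_mod_cast hW
  have crude : ∀ t : ℝ, 1 ≤ t → Z ^ e ≤ t → t ≤ Z ^ (e + 2 * k + 1) →
      Bound pr h D q Cc ρ β N Z t (t ^ γ * Z ^ (-(κ' / 2))) := by
    intro t ht1 ht2 ht3
    refine bound_mono (bound_crude hlift hp hq hcr (by linarith) ?_) ?_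
    · rw [le_div_iff₀ (by linarith)]
      refine le_trans ?_ hNZ
      rw [pow_add Z (5 * (K' + 1)), ← pow_mul, mul_comm (K' + 1)]
      gcongr
    · have h1 : Z ^ κ' ≤ t ^ γ := by
        calc Z ^ κ' ≤ Z ^ ((e : ℝ) * γ) := Real.rpow_le_rpow_of_exponent_le hZ1 he
          _ = (Z ^ e) ^ γ := by rw [Real.rpow_mul hZ0.le, Real.rpow_natCast]
          _ ≤ t ^ γ := Real.rpow_le_rpow (by positivity) ht2 hγ.le
      calc Z ^ (κ' / 2) = Z ^ κ' * Z ^ (-(κ' / 2)) := by
            rw [← Real.rpow_add hZ0]; congr 1; ring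
        _ ≤ _ := by gcongr
  induction j with
  | zero => intro t ht1 ht2 ht3; exact crude t ht1 (by simpa using ht2) ht3
  | succ j ih =>
    intro t ht1 ht2 ht3
    by_cases hc : Z ^ e ≤ t
    · exact crude t ht1 hc ht3
    push Not at hc
    have ht0 : 0 < t := by linarith
    set Y := (3 * (W : ℝ) ^ k * t) ^ γ * Z ^ (-(κ' / 2)) with hY
    have hWk : (1 : ℝ) ≤ (W : ℝ) ^ k := one_le_pow₀ hW0
    refine bound_mono (bound_step (Y := Y) hchess hlift hdesc hD hk hp hq hN hex hstep hρ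
      (hpair t ht1 hc.le) (by linarith) ht0 ?_ ?_ ?_) ?_
    · rw [le_div_iff₀ (by linarith)]
      refine le_trans ?_ hNZ
      calc (Z ^ (K' + 1)) ^ 5 * W * (3 * t) ≤ (Z ^ (K' + 1)) ^ 5 * Z * (Z * Z ^ e) := by gcongr
        _ = Z ^ (5 * (K' + 1) + (e + 2)) := by ring
        _ ≤ _ := pow_le_pow_right₀ hZ1 (by omega)
    · have h1 : 1 ≤ (3 * (W : ℝ) ^ k * t) ^ γ :=
        Real.one_le_rpow (by nlinarith) hγ.le
      have h2 : Z ^ (-κ') ≤ Z ^ (-(κ' / 2)) :=
        Real.rpow_le_rpow_of_exponent_le hZ1 (by linarith)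
      have h3 : 0 < Z ^ (-(κ' / 2)) := Real.rpow_pos_of_pos hZ0 _
      rw [hY]; nlinarith
    · intro m hm1 hmZ t' h1 h2
      have hm0 : (1 : ℝ) ≤ m := by exact_mod_cast hm1
      push_cast at h2
      refine bound_mono (ih t' (by linarith) ?_ ?_) ?_
      · refine ht2.trans ?_
        rw [pow_succ, mul_assoc]
        gcongr
      · refine h2.trans ?_
        calc 3 * ((W : ℝ) * m) ^ k * t ≤ Z * (Z * Z) ^ k * Z ^ e := by gcongr
          _ = Z ^ (e + 2 * k + 1) := by ring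
      · have h3 : t' ^ γ ≤ (3 * (W : ℝ) ^ k * t) ^ γ * √m := by
          calc t' ^ γ ≤ ((3 * (W : ℝ) ^ k * t) * (m : ℝ) ^ k) ^ γ := by
                refine Real.rpow_le_rpow (by linarith) (h2.trans (le_of_eq ?_)) hγ.le
                ring
            _ = (3 * (W : ℝ) ^ k * t) ^ γ * (m : ℝ) ^ ((k : ℝ) * γ) := by
                rw [Real.mul_rpow (by positivity) (by positivity), Real.rpow_mul (by linarith),
                  Real.rpow_natCast]
            _ ≤ _ := by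
                rw [Real.sqrt_eq_rpow]
                gcongr
        have h4 : 0 < Z ^ (-(κ' / 2)) := Real.rpow_pos_of_pos hZ0 _
        calc t' ^ γ * Z ^ (-(κ' / 2)) ≤ (3 * (W : ℝ) ^ k * t) ^ γ * √m * Z ^ (-(κ' / 2)) := by
              gcongr
          _ = Y * √m := by rw [hY]; ring
    · rw [hY, Real.mul_rpow (by positivity) ht0.le]
      have h4 : 0 ≤ t ^ γ * Z ^ (-(κ' / 2)) := by positivity
      calc (1 - 1 / (18 * (W : ℝ))) * ((3 * (W : ℝ) ^ k) ^ γ * t ^ γ * Z ^ (-(κ' / 2))) =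
          ((1 - 1 / (18 * (W : ℝ))) * (3 * (W : ℝ) ^ k) ^ γ) * (t ^ γ * Z ^ (-(κ' / 2))) := by
            ring
        _ ≤ 1 * (t ^ γ * Z ^ (-(κ' / 2))) := by gcongr
        _ = _ := one_mul _

/-- **the start**: from the claim at scale `μ` to the size of the set -/
lemma card_le_of_bound (hchess : ChessStmt) (hD : 1 ≤ D) (hex : ExLaw pr h D q Cc ρ β)
    (hZ : 1 ≤ Z) {n μ : ℕ} (hn : 1 ≤ n) {g : ℤ[X]} (hst : St pr h μ 0 1 μ g) {B : ℝ}
    (hB : 0 < B) (hb : Bound pr h D q Cc ρ β n Z μ (B ^ 6 ^ D)) (A : Finset ℤ)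
    (hA : ∀ a ∈ A, 1 ≤ a ∧ a ≤ (n : ℤ)) (hfree : Free pr 0 1 h A) : (A.card : ℝ) ≤ n * B := by
  classical
  have hμ := hst.lam_pos
  have hμ0 : (0 : ℝ) < μ := by exact_mod_cast hμ
  have hμZ : (μ : ℤ) ≠ 0 := by exact_mod_cast (by omega : μ ≠ 0)
  have hn0 : (0 : ℝ) < n := by exact_mod_cast hn
  choose ν hν using hex μ 0 1 μ g hst
  have hev : ∀ m : ℤ, (μ : ℤ) * g.eval m = h.eval m := by
    intro m
    have := congrArg (Polynomial.eval m) hst.eq
    simpa [eval_comp] using this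
  have hcls : ∀ c : ℤ, ((A.filter fun a => a % μ = c).card : ℝ) ≤ n / μ * B := by
    intro c
    set A' : Finset ℤ := (A.filter fun a => a % μ = c).image fun a : ℤ => a / μ with hA'
    have hmem : ∀ a' ∈ A', c + μ * a' ∈ A := by
      intro a' ha'
      obtain ⟨a, ha, rfl⟩ := mem_image.1 ha'
      obtain ⟨ha1, rfl⟩ := mem_filter.1 ha
      rwa [Int.emod_add_mul_ediv]
    have hcard : A'.card = (A.filter fun a => a % μ = c).card := by
      refine card_image_of_injOn fun a ha b hb hab => ?_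
      have h1 := (mem_filter.1 ha).2
      have h2 := (mem_filter.1 hb).2
      have h3 : a / μ = b / μ := hab
      rw [← Int.emod_add_mul_ediv a μ, ← Int.emod_add_mul_ediv b μ, h1, h2, h3]
    have hI : InI A' ((1 - c) / μ) (n / μ) := by
      intro a' ha'
      obtain ⟨h1, h2⟩ := hA _ (hmem a' ha')
      have h1' : (1 : ℝ) ≤ c + μ * a' := by exact_mod_cast h1
      have h2' : (c : ℝ) + μ * a' ≤ n := by exact_mod_cast h2
      rw [← add_div, div_le_iff₀ hμ0, lt_div_iff₀ hμ0]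
      constructor <;> linarith
    have hF : Free pr 0 1 g A' := by
      intro a ha b hb m hm hpr hab
      have := hfree _ (hmem a ha) _ (hmem b hb) m hm hpr (by rw [← hev, ← hab]; ring)
      exact mul_left_cancel₀ hμZ (by linarith)
    have h1 := expect_le hchess hD (fun i => (hν i).1) _ hB (hb 0 1 μ g A' _ ν hst hI hF hν)
    rw [ES.expect_proj (empty_mem_low q (one_le_pow₀ hZ)), expect_lift,
      div_le_iff₀ (by positivity), hcard] at h1
    linarith
  have hmaps : ∀ a ∈ A, a % (μ : ℤ) ∈ Ico (0 : ℤ) μ := fun a _ =>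
    mem_Ico.2 ⟨Int.emod_nonneg _ hμZ, Int.emod_lt_of_pos _ (by omega)⟩
  rw [card_eq_sum_card_fiberwise (f := fun a => a % (μ : ℤ)) (t := Ico (0 : ℤ) μ) hmaps]
  push_cast
  refine (sum_le_sum fun c _ => hcls c).trans (le_of_eq ?_)
  rw [sum_const, Int.card_Ico]
  simp only [sub_zero, Int.toNat_natCast, nsmul_eq_mul]
  field_simp

end

end Crest.Agent.N41.Main
end

-- ▼ part N41/Main/Final
section

/-!
# Row 41: choice of the parameters, `MainStmt` from the modules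
-/

set_option autoImplicit false

namespace Crest.Agent.N41.Main

open Finset Polynomial Filter Topology
open scoped BigOperators
open Local (Om ptA ptB RP tens)
open ES (avg es proj res qq red lift)

lemma exists_gamma (W k : ℕ) (hW : 1 ≤ W) :
    ∃ γ : ℝ, 0 < γ ∧ k * γ ≤ 1 / 2 ∧ (1 - 1 / (18 * W)) * (3 * (W : ℝ) ^ k) ^ γ ≤ 1 := by
  have hW0 : (0 : ℝ) < W := by exact_mod_cast hW
  have hc1 : Continuous fun γ : ℝ => (k : ℝ) * γ := by fun_prop
  have hc2 : Continuous fun γ : ℝ => (1 - 1 / (18 * W)) * (3 * (W : ℝ) ^ k) ^ γ :=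
    continuous_const.mul (Real.continuous_const_rpow (by positivity))
  have h1 : ∀ᶠ γ in 𝓝 (0 : ℝ), (k : ℝ) * γ < 1 / 2 :=
    hc1.continuousAt.eventually_lt continuousAt_const (by simp)
  have h2 : ∀ᶠ γ in 𝓝 (0 : ℝ), (1 - 1 / (18 * W)) * (3 * (W : ℝ) ^ k) ^ γ < 1 :=
    hc2.continuousAt.eventually_lt continuousAt_const (by
      have : (0 : ℝ) < 1 / (18 * W) := by positivity
      simp only [Real.rpow_zero]; linarith)
  obtain ⟨γ, ⟨h3, h4⟩, h5⟩ :=
    (((h1.and h2).filter_mono nhdsWithin_le_nhds).and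
      (self_mem_nhdsWithin (a := (0 : ℝ)) (s := Set.Ioi 0))).exists
  exact ⟨γ, h5, h3.le, h4.le⟩

lemma St.natDegree_le {pr : Bool} {h : ℤ[X]} {t : ℝ} {r d lam : ℕ} {g : ℤ[X]}
    (hst : St pr h t r d lam g) : g.natDegree ≤ h.natDegree := by
  have h0 : (lam : ℤ) ≠ 0 := by have := hst.lam_pos; omega
  rw [← natDegree_C_mul (p := g) h0, hst.eq]
  refine natDegree_comp_le.trans ?_
  have : (C (r : ℤ) + C (d : ℤ) * X).natDegree ≤ 1 := by compute_degree
  exact (Nat.mul_le_mul_left _ this).trans (by simp)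

lemma ker_nonneg (pr : Bool) (p : ℕ) [NeZero p] (r d : ℕ) (g : ℤ[X]) (t : ZMod p) :
    0 ≤ ker pr p r d g t := by
  unfold ker push
  refine sum_nonneg fun n _ => ?_
  unfold wadm
  split_ifs
  · positivity
  · exact le_rfl

lemma exists_threshold {δ σ₀ : ℝ} (hδ : 0 < δ) (hσ : 0 < σ₀) (Cc x : ℝ) (n : ℕ) :
    ∃ p₀ : ℕ, n ≤ p₀ ∧ ∀ p : ℕ, p₀ < p →
      (p : ℝ) ^ (-δ) ≤ σ₀ ∧ Cc ≤ (p : ℝ) ^ (δ / 4) ∧ Cc ≤ p ∧ x ≤ p := by
  have h1 : ∀ᶠ p : ℕ in atTop, (p : ℝ) ^ (-δ) ≤ σ₀ :=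
    ((tendsto_rpow_neg_atTop hδ).comp tendsto_natCast_atTop_atTop).eventually_le_const hσ
  have h2 : ∀ᶠ p : ℕ in atTop, Cc ≤ (p : ℝ) ^ (δ / 4) :=
    ((tendsto_rpow_atTop (by positivity : 0 < δ / 4)).comp
      tendsto_natCast_atTop_atTop).eventually_ge_atTop Cc
  have h3 : ∀ᶠ p : ℕ in atTop, Cc ≤ (p : ℝ) := tendsto_natCast_atTop_atTop.eventually_ge_atTop Cc
  have h4 : ∀ᶠ p : ℕ in atTop, x ≤ (p : ℝ) := tendsto_natCast_atTop_atTop.eventually_ge_atTop x
  obtain ⟨m, hm⟩ := eventually_atTop.1 (h1.and (h2.and (h3.and h4)))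
  exact ⟨max m n, le_max_right _ _, fun p hp => hm p (le_trans (le_max_left _ _) hp.le)⟩

set_option maxHeartbeats 1600000 in
theorem main (pr : Bool) (hloc : LocalStmt) (hchess : ChessStmt) (hstep : StepStmt)
    (hlift : LiftStmt) (href : RefineStmt) (hexp : LocalExpStmt) (hnc : NonconstStmt)
    (hdesc : DescentStmt) (hpair : PairAppStmt pr) : MainStmt pr := by
  classical
  intro k hk
  obtain ⟨δ, pE, hδ, hexp⟩ := hexp k
  set D : ℕ := ⌈3 / δ⌉₊ + 1 with hDdef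
  have hD : 1 ≤ D := by omega
  have hδD : 3 ≤ δ * D := by
    have h1 : 3 / δ ≤ (D : ℝ) := by
      rw [hDdef]; push_cast; linarith [Nat.le_ceil (3 / δ)]
    rwa [div_le_iff₀' hδ] at h1
  have hk1 : (1 : ℝ) ≤ 2 * k := by
    have : (2 : ℝ) ≤ k := by exact_mod_cast hk
    linarith
  obtain ⟨Cc, σ₀, hCc, hσ₀, hloc⟩ := hloc D (2 * k) hD hk1
  obtain ⟨p₁, C₁, κ₂, D₀, hC₁, hκ₂, hpair⟩ := hpair k (δ / 4) Cc hk (by positivity) hCc
  set κ := min (δ / 4) κ₂ with hκdef
  have hκ : 0 < κ := lt_min (by positivity) hκ₂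
  obtain ⟨K, K', κ', pS, Z₀, hK, hκ', hZ₀, hstep⟩ := hstep D κ hD hκ
  obtain ⟨p₀, hp₀, hthr⟩ := exists_threshold hδ hσ₀ Cc pS (max p₁ pE)
  obtain ⟨W, hW, hpair⟩ := hpair p₀ (le_trans (le_max_left _ _) hp₀)
  obtain ⟨γ, hγ, hγk, hγW⟩ := exists_gamma W k hW
  set e : ℕ := ⌈κ' / γ⌉₊ with hedef
  have he : κ' ≤ e * γ := by
    have h1 : κ' / γ ≤ (e : ℝ) := Nat.le_ceil _
    rwa [div_le_iff₀ hγ] at h1
  set E : ℕ := K + 1 + k * (e + 1) with hE
  set b : ℕ := 5 * (K' + 1) + (e + 2 * k + 1) + 2 * k * (E * C₁) + 4 * k * (e + 1) with hb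
  have hb0 : (0 : ℝ) < b := by
    have : 0 < b := by omega
    exact_mod_cast this
  have hr0 : (0 : ℝ) < ((6 ^ D : ℕ) : ℝ) := by positivity
  refine ⟨min (κ' / (2 * b * ((6 ^ D : ℕ) : ℝ))) (1 / 2), lt_min (by positivity) (by norm_num),
    lt_of_le_of_lt (min_le_right _ _) (by norm_num), fun h hdeg hlc hroot => ?_⟩
  have h0 : h ≠ 0 := by rintro rfl; simp at hlc
  obtain ⟨r₀, μ, g, hr₀, hμ, -, -, hg, hprim, hgroot⟩ := href pr 0 1 1 h h0 le_rfl le_rfl hroot
  obtain rfl : r₀ = 0 := by omega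
  have hst : St pr h μ 0 1 μ g :=
    ⟨one_pos, hμ, by exact_mod_cast hμ, le_rfl, hg, hprim, by simpa using hgroot⟩
  obtain ⟨Ch, N₁, hCh, hpair⟩ := hpair h hdeg hlc
  have hμ1 : (1 : ℝ) ≤ μ := by exact_mod_cast hμ
  have hZt : Tendsto (fun n : ℕ => (n : ℝ) ^ (b : ℝ)⁻¹) atTop atTop :=
    (tendsto_rpow_atTop (by positivity)).comp tendsto_natCast_atTop_atTop
  obtain ⟨N₀, hN₀⟩ := eventually_atTop.1 ((hZt.eventually_ge_atTop
    (3 + |Z₀| + W + |D₀| + b + Ch + μ)).and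
    (tendsto_natCast_atTop_atTop.eventually_ge_atTop N₁))
  refine ⟨μ, hμ1, max N₀ 1, le_max_right _ _, fun n hn A hA hfree => ?_⟩
  have hn1 : 1 ≤ n := le_trans (le_max_right _ _) hn
  obtain ⟨hZ, hN₁⟩ := hN₀ n (le_trans (le_max_left _ _) hn)
  have hn0 : (0 : ℝ) < n := by exact_mod_cast hn1
  set Z : ℝ := (n : ℝ) ^ (b : ℝ)⁻¹ with hZdef
  have hZb : Z ^ b = n := Real.rpow_inv_natCast_pow hn0.le (by omega)
  have hW0 : (0 : ℝ) ≤ W := Nat.cast_nonneg _
  have hz1 := abs_nonneg Z₀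
  have hz2 := le_abs_self Z₀
  have hz3 := abs_nonneg D₀
  have hz4 := le_abs_self D₀
  have hZ3 : 3 ≤ Z := by linarith
  have hZ1 : 1 ≤ Z := by linarith
  have hZ0 : 0 < Z := by linarith
  have hWZ : (W : ℝ) ≤ Z := by linarith
  have hroot' : ∀ (a c : ℕ), 1 ≤ c → a * c ≤ b → Z ^ a ≤ (n : ℝ) ^ (1 / (c : ℝ)) := by
    intro a c hc hac
    have hc0 : (0 : ℝ) < c := by exact_mod_cast hc
    rw [← hZb, ← Real.rpow_natCast Z b, ← Real.rpow_mul hZ0.le, ← Real.rpow_natCast Z a]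
    refine Real.rpow_le_rpow_of_exponent_le hZ1 ?_
    rw [mul_one_div, le_div_iff₀ hc0]
    exact_mod_cast hac
  -- the primes
  set P : Finset ℕ := (Ioc p₀ ⌊(Z ^ E) ^ C₁⌋₊).filter Nat.Prime with hP
  set q : P → ℕ := fun i => i.1 with hq
  have hqp : ∀ i, (q i).Prime := fun i => (mem_filter.1 i.2).2
  have hqi : Function.Injective q := Subtype.val_injective
  have hq0 : ∀ i, p₀ < q i := fun i => (mem_Ioc.1 (mem_filter.1 i.2).1).1
  have : ∀ i, NeZero (q i) := fun i => ⟨(hqp i).ne_zero⟩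
  have hqpos : ∀ i, (1 : ℝ) ≤ q i := fun i => by exact_mod_cast (hqp i).one_le
  set ρ : P → ℝ := fun i => Cc * √((q i : ℝ) ^ (-δ)) with hρdef
  set β : P → ℝ := fun i => Cc * ((q i : ℝ) ^ (-δ)) ^ D with hβdef
  have hex : ExLaw pr h D q Cc ρ β := by
    intro t r d lam g' hs i
    obtain ⟨hn1, hn2⟩ := hnc pr r d g' hs.prim hs.root
    obtain ⟨-, h2, h3, h4⟩ := hexp pr (q i) r d g' (hqp i)
      (lt_of_le_of_lt (le_trans (le_max_right _ _) hp₀) (hq0 i))
      (hdeg ▸ St.natDegree_le hs) (hn1 _ (hqp i)) hn2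
    exact hloc _ _ _ (ker_nonneg pr _ r d g') h2 h3 h4 (by positivity) (hthr _ (hq0 i)).1
  have hρ : ∀ i, 0 ≤ ρ i ∧ ρ i ≤ (q i : ℝ) ^ (-(δ / 4)) := by
    intro i
    have hqi0 : (0 : ℝ) < q i := by linarith [hqpos i]
    refine ⟨by positivity, ?_⟩
    calc ρ i ≤ (q i : ℝ) ^ (δ / 4) * √((q i : ℝ) ^ (-δ)) := by
          simp only [hρdef]; gcongr; exact (hthr _ (hq0 i)).2.1
      _ = _ := by
          rw [Real.sqrt_eq_rpow, ← Real.rpow_mul hqi0.le, ← Real.rpow_add hqi0]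
          congr 1; ring
  have hρ' : ∀ i, 0 ≤ ρ i ∧ ρ i ≤ (q i : ℝ) ^ (-κ) := fun i =>
    ⟨(hρ i).1, (hρ i).2.trans (Real.rpow_le_rpow_of_exponent_le (hqpos i)
      (neg_le_neg (min_le_left _ _)))⟩
  have hβ : ∀ i, β i ≤ 1 / (q i : ℝ) ^ 2 := by
    intro i
    have hqi0 : (0 : ℝ) < q i := by linarith [hqpos i]
    have h1 : ((q i : ℝ) ^ (-δ)) ^ D ≤ (q i : ℝ) ^ (-(3 : ℝ)) := by
      rw [← Real.rpow_natCast, ← Real.rpow_mul hqi0.le]
      exact Real.rpow_le_rpow_of_exponent_le (hqpos i) (by linarith)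
    calc β i ≤ (q i : ℝ) * (q i : ℝ) ^ (-(3 : ℝ)) := by
          simp only [hβdef]; gcongr; exact (hthr _ (hq0 i)).2.2.1
      _ = _ := by
          rw [Real.rpow_neg hqi0.le, show (3 : ℝ) = ((3 : ℕ) : ℝ) by norm_num, Real.rpow_natCast]
          field_simp
  have hstep' := fun ν nf kap hν => hstep P (fun i => ZMod (q i)) q ρ β ν nf kap Z (by linarith)
    (fun i => (hthr _ (hq0 i)).2.2.2) (qq_inj hqp hqi) (fun i => by rw [ZMod.card]) hν hρ'
  have hcr : CrudeAt D q ρ Z K' κ' := fun ν hν => (hstep' ν ν (fun _ _ => 0) hν).1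
  have hst' : StepAt D q ρ β Z K K' κ κ' := fun ν nf kap hν hs => (hstep' ν nf kap hν).2 hs hβ
  have hpa : ∀ t : ℝ, 1 ≤ t → t ≤ Z ^ e →
      PairAt pr h q Cc (δ / 4) W n (Z ^ K) t ((Z ^ K) ^ (-κ)) := by
    intro t ht1 ht2 r d lam g' hs
    have htW : t * W ≤ Z ^ (e + 1) := by rw [pow_succ]; gcongr
    have hZK : Z ≤ Z ^ K := le_self_pow₀ hZ1 (by omega)
    obtain ⟨W₂, c₀, h1, h2, h3, h4⟩ := hpair P q n (Z ^ E) (Z ^ K) t hN₁ hqp hqi hq0
      (fun p hp hp0 hpZ => ⟨⟨p, mem_filter.2 ⟨mem_Ioc.2 ⟨hp0, Nat.le_floor hpZ⟩, hp⟩⟩, rfl⟩)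
      (by linarith) (pow_le_pow_right₀ hZ1 (by omega))
      (by
        rw [← pow_mul]
        have := hroot' (E * C₁) (2 * k) (by omega) (by rw [hb, mul_comm]; omega)
        simpa using this)
      (by
        rw [← hZb, Real.log_pow]
        have h5 : Real.log Z ≤ Z := (Real.log_le_sub_one_of_pos hZ0).trans (by linarith)
        have h6 : 0 ≤ Real.log Z := Real.log_nonneg hZ1
        calc (b : ℝ) * Real.log Z ≤ Z * Z := by gcongr; linarith
          _ = Z ^ 2 := by ring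
          _ ≤ Z ^ E := pow_le_pow_right₀ hZ1 (by omega))
      (by
        calc Ch * (t * W) ^ k ≤ Z * (Z ^ (e + 1)) ^ k := by gcongr; linarith
          _ = Z ^ (1 + k * (e + 1)) := by ring
          _ ≤ Z ^ E := pow_le_pow_right₀ hZ1 (by omega))
      (by
        have := hroot' (e + 1) (4 * k) (by omega) (by rw [hb, mul_comm]; omega)
        exact htW.trans (by simpa using this))
      ht1 r d lam g' hs
    refine ⟨W₂, c₀, h1, h2, h3, fun A Aa Ab x₀ ca cb ψ a1 a2 a3 a4 a5 a6 a7 a8 a9 a10 a11 T sa sb =>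
      (h4 A Aa Ab x₀ ca cb ψ a1 a2 a3 a4 a5 a6 a7 a8 a9 a10 a11 T sa sb).trans ?_⟩
    exact Real.rpow_le_rpow_of_exponent_le (by linarith) (neg_le_neg (min_le_right _ _))
  obtain ⟨j, hj⟩ := pow_unbounded_of_one_lt (Z ^ e) (by norm_num : (1 : ℝ) < 3)
  have hbd := bound_rec hchess hlift hdesc hD (by omega) hqp hqi hn0 hex hcr hst' hρ hpa hZ3 hW hWZ
    hγ (by rw [hdeg]; exact hγk) (by rw [hdeg]; exact hγW) hκ' he
    (by rw [hdeg, ← hZb]; exact pow_le_pow_right₀ hZ1 (by omega)) j μ hμ1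
    (hj.le.trans (le_mul_of_one_le_right (by positivity) hμ1))
    (le_trans (by linarith) (le_self_pow₀ hZ1 (by omega)))
  set B : ℝ := μ * Z ^ (-(κ' / (2 * ((6 ^ D : ℕ) : ℝ)))) with hB
  have hB0 : 0 < B := by positivity
  have hγ1 : γ ≤ 1 := by
    have : (2 : ℝ) ≤ k := by exact_mod_cast hk
    nlinarith
  have hBr : (μ : ℝ) ^ γ * Z ^ (-(κ' / 2)) ≤ B ^ 6 ^ D := by
    rw [hB, mul_pow, ← Real.rpow_natCast (Z ^ _), ← Real.rpow_mul hZ0.le]
    have h1 : -(κ' / (2 * ((6 ^ D : ℕ) : ℝ))) * ((6 ^ D : ℕ) : ℝ) = -(κ' / 2) := by field_simp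
    rw [h1]
    gcongr
    calc (μ : ℝ) ^ γ ≤ (μ : ℝ) ^ (1 : ℝ) := Real.rpow_le_rpow_of_exponent_le hμ1 hγ1
      _ = μ := Real.rpow_one _
      _ ≤ _ := le_self_pow₀ hμ1 (by positivity)
  refine (card_le_of_bound hchess hD hex hZ1 hn1 hst hB0 (bound_mono hbd hBr) A hA hfree).trans ?_
  have hn1' : (1 : ℝ) ≤ n := by exact_mod_cast hn1
  calc (n : ℝ) * B = μ * (n : ℝ) ^ ((1 : ℝ) - κ' / (2 * b * ((6 ^ D : ℕ) : ℝ))) := by
        rw [hB, hZdef, ← Real.rpow_mul hn0.le, sub_eq_add_neg, Real.rpow_add hn0, Real.rpow_one]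
        have : (b : ℝ)⁻¹ * -(κ' / (2 * ((6 ^ D : ℕ) : ℝ))) =
            -(κ' / (2 * b * ((6 ^ D : ℕ) : ℝ))) := by field_simp
        rw [this]; ring
    _ ≤ _ := by
        gcongr
        exact min_le_left _ _

end Crest.Agent.N41.Main
end

-- ▼ part N41/Local/Weights
section

/-!
# Row 41, module A: the relation `Rel`, the potential `En` and the weights of hexagon maps
-/

set_option autoImplicit false
open Finset
open scoped BigOperators

namespace Crest.Agent.N41.Local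

/-- the chiral relation: `a ↦ a+2` for even `a`, `a ↦ a-2` for odd `a` -/
def rho (a b : H) : Prop := (a.val % 2 = 0 ∧ b = a + 2) ∨ (a.val % 2 = 1 ∧ b = a + 4)

instance (a b : H) : Decidable (rho a b) := by unfold rho; infer_instance

/-- equal, adjacent, or chirally related -/
def Rel (a b : H) : Prop := a = b ∨ b = a + 1 ∨ a = b + 1 ∨ rho a b

instance (a b : H) : Decidable (Rel a b) := by unfold Rel; infer_instance

lemma Rel_fold : ∀ j a b : H, Rel a b → Rel (fold j a) (fold j b) := by decide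
lemma Rel_mir : ∀ j a b : H, Rel (mir j a) (mir j b) ↔ Rel a b := by decide
lemma rho_mir : ∀ j a b : H, rho (mir j a) (mir j b) ↔ rho a b := by decide
lemma not_Rel_of_rho : ∀ a b : H, rho a b → ¬ Rel b a := by decide
lemma rho_ne : ∀ a b : H, rho a b → a ≠ b := by decide
lemma rho_zero_two : rho 0 2 := by decide
lemma Rel_zero_two : Rel 0 2 := by decide
lemma mir_ne : ∀ j a : H, mir j a ≠ a := by decide
lemma fold_eq_or : ∀ j a : H, fold j a = a ∨ fold j a = mir j a := by decide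

/-- the potential of a map of the hexagon -/
def En (ψ : H → H) : ℕ :=
  ∑ a, (4 * (if ψ a = ψ (a + 1) then 1 else 0) + if ψ a = ψ (a + 3) then 1 else 0)

lemma En_le (ψ : H → H) : En ψ ≤ 30 := by
  unfold En
  calc _ ≤ ∑ _a : H, 5 := sum_le_sum fun a _ => by split_ifs <;> omega
    _ = 30 := by simp

/-- the potential in terms of an abstract indicator -/
def e6 (I : H → H → ℕ) (a b c d e f : H) : ℕ :=
  4 * (I a b + I b c + I c d + I d e + I e f + I f a) +
    (I a d + I b e + I c f + I d a + I e b + I f c)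

/-- the equality indicator -/
def eqI (a b : H) : ℕ := if a = b then 1 else 0

lemma En_eq (ψ : H → H) : En ψ = e6 eqI (ψ 0) (ψ 1) (ψ 2) (ψ 3) (ψ 4) (ψ 5) := by
  unfold En e6 eqI
  rw [Fin.sum_univ_six]
  simp only [show (0 : H) + 1 = 1 from rfl, show (1 : H) + 1 = 2 from rfl,
    show (2 : H) + 1 = 3 from rfl, show (3 : H) + 1 = 4 from rfl, show (4 : H) + 1 = 5 from rfl,
    show (5 : H) + 1 = 0 from rfl, show (0 : H) + 3 = 3 from rfl, show (1 : H) + 3 = 4 from rfl,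
    show (2 : H) + 3 = 5 from rfl, show (3 : H) + 3 = 0 from rfl, show (4 : H) + 3 = 1 from rfl,
    show (5 : H) + 3 = 2 from rfl]
  ring

lemma eqI_comm (a b : H) : eqI a b = eqI b a := by unfold eqI; simp only [eq_comm]
lemma eqI_self (a : H) : eqI a a = 1 := by simp [eqI]
lemma eqI_le (a b : H) : eqI a b ≤ 1 := by unfold eqI; split_ifs <;> omega
lemma eqI_trans (a b c : H) : eqI a b + eqI b c ≤ 1 + eqI a c := by
  unfold eqI; split_ifs <;> simp_all
lemma eqI_of_ne {a b : H} (h : a ≠ b) : eqI a b = 0 := by simp [eqI, h]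

lemma e6_rot (a b c d e f : H) : e6 eqI a b c d e f = e6 eqI b c d e f a := by
  unfold e6; ring

lemma e6_rev (a b c d e f : H) : e6 eqI a b c d e f = e6 eqI f e d c b a := by
  unfold e6
  rw [eqI_comm f e, eqI_comm e d, eqI_comm d c, eqI_comm c b, eqI_comm b a, eqI_comm a f]
  ring

lemma e6_key (a b c d e f : H) (h : ¬ (a = f ∧ b = e ∧ c = d)) :
    2 * e6 eqI a b c d e f + 1 ≤ e6 eqI f e d d e f + e6 eqI a b c c b a := by
  unfold e6
  simp only [eqI_self]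
  rw [eqI_comm f e, eqI_comm e d, eqI_comm f d, eqI_comm c b, eqI_comm b a, eqI_comm c a,
    eqI_comm f a, eqI_comm d a, eqI_comm e b, eqI_comm f c]
  have h1 := eqI_trans a f d
  have h2 := eqI_trans a d f
  have h3 := eqI_trans a d c
  have h4 := eqI_trans a c d
  have h5 := eqI_trans d a f
  have h6 := eqI_trans c f a
  have h7 := eqI_trans d c f
  have h8 := eqI_le a f
  have h9 := eqI_le b e
  have h10 := eqI_le c d
  rw [eqI_comm f d] at h1
  rw [eqI_comm d c] at h3 h7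
  rw [eqI_comm d a] at h5
  rw [eqI_comm f a, eqI_comm c a] at h6
  by_cases haf : a = f
  · by_cases hbe : b = e
    · have hcd : c ≠ d := fun hcd => h ⟨haf, hbe, hcd⟩
      have := eqI_of_ne hcd
      omega
    · have := eqI_of_ne hbe
      omega
  · have := eqI_of_ne haf
    omega

lemma En_mir (j : H) (ψ : H → H) : En (ψ ∘ mir j) = En ψ := by
  rw [En_eq, En_eq]
  fin_cases j
  · change e6 eqI (ψ 1) (ψ 0) (ψ 5) (ψ 4) (ψ 3) (ψ 2) = _
    rw [e6_rev, e6_rot (ψ 0), e6_rot (ψ 1)]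
  · change e6 eqI (ψ 3) (ψ 2) (ψ 1) (ψ 0) (ψ 5) (ψ 4) = _
    rw [e6_rev, e6_rot (ψ 4), e6_rot (ψ 5)]
  · change e6 eqI (ψ 5) (ψ 4) (ψ 3) (ψ 2) (ψ 1) (ψ 0) = _
    rw [e6_rev]
  · change e6 eqI (ψ 1) (ψ 0) (ψ 5) (ψ 4) (ψ 3) (ψ 2) = _
    rw [e6_rev, e6_rot (ψ 0), e6_rot (ψ 1)]
  · change e6 eqI (ψ 3) (ψ 2) (ψ 1) (ψ 0) (ψ 5) (ψ 4) = _
    rw [e6_rev, e6_rot (ψ 4), e6_rot (ψ 5)]
  · change e6 eqI (ψ 5) (ψ 4) (ψ 3) (ψ 2) (ψ 1) (ψ 0) = _
    rw [e6_rev]

lemma comp_mir_of_three (j : H) (ψ : H → H) (h1 : ψ (j + 4) = ψ (j + 3))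
    (h2 : ψ (j + 5) = ψ (j + 2)) (h3 : ψ j = ψ (j + 1)) : ψ ∘ mir j = ψ := by
  have key : ∀ j a : H, (a = j + 4 ∧ mir j a = j + 3) ∨ (a = j + 3 ∧ mir j a = j + 4) ∨
      (a = j + 5 ∧ mir j a = j + 2) ∨ (a = j + 2 ∧ mir j a = j + 5) ∨
      (a = j ∧ mir j a = j + 1) ∨ (a = j + 1 ∧ mir j a = j) := by decide
  funext a
  rcases key j a with h | h | h | h | h | h <;>
    simp only [Function.comp_apply, h.2] <;> rw [h.1] <;> simp only [h1, h2, h3]

lemma En_shift (ψ : H → H) (j : H) : En ψ =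
    e6 eqI (ψ (j + 4)) (ψ (j + 5)) (ψ j) (ψ (j + 1)) (ψ (j + 2)) (ψ (j + 3)) := by
  rw [En_eq]
  fin_cases j
  · change _ = e6 eqI (ψ 4) (ψ 5) (ψ 0) (ψ 1) (ψ 2) (ψ 3)
    rw [e6_rot (ψ 4), e6_rot (ψ 5)]
  · change _ = e6 eqI (ψ 5) (ψ 0) (ψ 1) (ψ 2) (ψ 3) (ψ 4)
    rw [e6_rot (ψ 5)]
  · rfl
  · change _ = e6 eqI (ψ 1) (ψ 2) (ψ 3) (ψ 4) (ψ 5) (ψ 0)
    rw [e6_rot (ψ 0)]
  · change _ = e6 eqI (ψ 2) (ψ 3) (ψ 4) (ψ 5) (ψ 0) (ψ 1)
    rw [e6_rot (ψ 0), e6_rot (ψ 1)]
  · change _ = e6 eqI (ψ 3) (ψ 4) (ψ 5) (ψ 0) (ψ 1) (ψ 2)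
    rw [e6_rot (ψ 0), e6_rot (ψ 1), e6_rot (ψ 2)]

/-- strict convexity of the potential under the two folds of a mirror -/
lemma En_fold (j : H) (ψ : H → H) (h : ψ ∘ mir j ≠ ψ) :
    2 * En ψ + 1 ≤ En (ψ ∘ fold j) + En (ψ ∘ fold (j + 3)) := by
  have f1 : ∀ j : H, fold j (j + 4) = j + 3 ∧ fold j (j + 5) = j + 2 ∧ fold j j = j + 1 ∧
      fold j (j + 1) = j + 1 ∧ fold j (j + 2) = j + 2 ∧ fold j (j + 3) = j + 3 := by decide
  have f2 : ∀ j : H, fold (j + 3) (j + 4) = j + 4 ∧ fold (j + 3) (j + 5) = j + 5 ∧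
      fold (j + 3) j = j ∧ fold (j + 3) (j + 1) = j ∧ fold (j + 3) (j + 2) = j + 5 ∧
      fold (j + 3) (j + 3) = j + 4 := by decide
  rw [En_shift ψ j, En_shift (ψ ∘ fold j) j, En_shift (ψ ∘ fold (j + 3)) j]
  simp only [Function.comp_apply, f1 j, f2 j]
  exact e6_key _ _ _ _ _ _ fun hh => h (comp_mir_of_three j ψ hh.1 hh.2.1 hh.2.2)

/-- the non-injective `Rel`-preserving maps -/
def Allowed (ψ : H → H) : Prop :=
  ¬ Function.Injective ψ ∧ ∀ a b, Rel a b → Rel (ψ a) (ψ b)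

lemma not_allowed_id : ¬ Allowed id := fun h => h.1 Function.injective_id

lemma allowed_comp_fold (j : H) {ψ : H → H} (h : ∀ a b, Rel a b → Rel (ψ a) (ψ b)) :
    Allowed (ψ ∘ fold j) := by
  refine ⟨fun hinj => mir_ne j 0 (hinj ?_), fun a b hab => h _ _ (Rel_fold j a b hab)⟩
  simp [fold_mir]

lemma Allowed.comp_mir (j : H) {ψ : H → H} (h : Allowed ψ) : Allowed (ψ ∘ mir j) := by
  refine ⟨fun hinj => h.1 fun a b hab => ?_, fun a b hab => h.2 _ _ ((Rel_mir j a b).2 hab)⟩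
  have : mir j a = mir j b := hinj (by simpa [mir_mir] using hab)
  rw [← mir_mir j a, this, mir_mir]

lemma comp_mir_mir (j : H) (ψ : H → H) : (ψ ∘ mir j) ∘ mir j = ψ := by
  funext a; simp [mir_mir]

lemma allowed_comp_mir_iff (j : H) (ψ : H → H) : Allowed (ψ ∘ mir j) ↔ Allowed ψ :=
  ⟨fun h => comp_mir_mir j ψ ▸ h.comp_mir j, fun h => h.comp_mir j⟩

lemma comp_fold_mir (j : H) (ψ : H → H) : (ψ ∘ fold j) ∘ mir j = ψ ∘ fold j := by
  funext a; simp [fold_mir]

lemma comp_fold3_mir (j : H) (ψ : H → H) : (ψ ∘ fold (j + 3)) ∘ mir j = ψ ∘ fold (j + 3) := by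
  funext a; simp [fold3_mir]

lemma comp_fold_of_folded {j : H} {ψ : H → H} (h : ψ ∘ mir j = ψ) : ψ ∘ fold j = ψ := by
  funext a
  rcases fold_eq_or j a with h1 | h1
  · simp [h1]
  · simpa [h1] using congrFun h a

lemma comp_fold3_of_folded {j : H} {ψ : H → H} (h : ψ ∘ mir j = ψ) : ψ ∘ fold (j + 3) = ψ := by
  refine comp_fold_of_folded ?_
  funext a
  rw [Function.comp_apply, mir_add_three]
  exact congrFun h a

open Classical in
/-- the weight of a non-injective map -/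
noncomputable def wa (ε l : ℝ) (ψ : H → H) : ℝ := if Allowed ψ then ε * l ^ (2 * En ψ) else 0

/-- the weight of a map of the hexagon -/
noncomputable def wt (ε l : ℝ) (ψ : H → H) : ℝ := (if ψ = id then 1 else 0) + wa ε l ψ

section
variable {ε l : ℝ}

lemma wa_nonneg (hε : 0 ≤ ε) (hl : 1 ≤ l) (ψ : H → H) : 0 ≤ wa ε l ψ := by
  unfold wa; split_ifs
  · positivity
  · exact le_rfl

lemma wt_nonneg (hε : 0 ≤ ε) (hl : 1 ≤ l) (ψ : H → H) : 0 ≤ wt ε l ψ := by
  unfold wt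
  have := wa_nonneg hε hl ψ
  split_ifs <;> linarith

lemma wa_id : wa ε l id = 0 := by simp [wa, not_allowed_id]

lemma wt_id : wt ε l id = 1 := by simp [wt, wa_id]

lemma wt_of_ne {ψ : H → H} (h : ψ ≠ id) : wt ε l ψ = wa ε l ψ := by simp [wt, h]

lemma wa_of_allowed {ψ : H → H} (h : Allowed ψ) : wa ε l ψ = ε * l ^ (2 * En ψ) := by
  simp [wa, h]

lemma wt_of_allowed {ψ : H → H} (h : Allowed ψ) : wt ε l ψ = ε * l ^ (2 * En ψ) := by
  rw [wt_of_ne (fun h' => not_allowed_id (h' ▸ h)), wa_of_allowed h]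

lemma wa_comp_mir (j : H) (ψ : H → H) : wa ε l (ψ ∘ mir j) = wa ε l ψ := by
  by_cases h : Allowed ψ
  · rw [wa_of_allowed h, wa_of_allowed (h.comp_mir j), En_mir]
  · have h' : ¬ Allowed (ψ ∘ mir j) := fun h' => h ((allowed_comp_mir_iff j ψ).1 h')
    simp [wa, h, h']

lemma rel_of_wt_ne {ψ : H → H} (h : wt ε l ψ ≠ 0) : ∀ a b, Rel a b → Rel (ψ a) (ψ b) := by
  by_cases h1 : ψ = id
  · subst h1; exact fun a b hab => hab
  · by_cases h2 : Allowed ψ
    · exact h2.2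
    · exact absurd (by simp [wt, wa, h1, h2]) h

lemma sum_wt_mul (M : (H → H) → ℝ) :
    ∑ ψ, wt ε l ψ * M ψ = M id + ∑ ψ, wa ε l ψ * M ψ := by
  simp [wt, add_mul, sum_add_distrib]

lemma sum_wa_le (hε : 0 ≤ ε) (hl : 1 ≤ l) : ∑ ψ, wa ε l ψ ≤ 6 ^ 6 * (ε * l ^ 60) := by
  calc _ ≤ ∑ _ψ : H → H, ε * l ^ 60 := by
        refine sum_le_sum fun ψ _ => ?_
        unfold wa; split_ifs
        · refine mul_le_mul_of_nonneg_left (pow_le_pow_right₀ hl ?_) hε
          have := En_le ψ; omega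
        · positivity
    _ = _ := by
        rw [sum_const, card_univ, Fintype.card_fun, Fintype.card_fin, nsmul_eq_mul]; norm_num

end

end Crest.Agent.N41.Local
end

-- ▼ part N41/Local/Edge
section

/-!
# Row 41, module A: resampling lemmas and the edge lemma on a finite product space
-/

set_option autoImplicit false
open Finset
open scoped BigOperators

namespace Crest.Agent.N41.Local

section resample
variable {X V : Type} [Fintype X] [DecidableEq X] [Fintype V] [Nonempty V]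

lemma expect_update (c : X) (G : (X → V) → ℝ) :
    𝔼 y, G y = 𝔼 y, 𝔼 s, G (Function.update y c s) := by
  have hinv : Function.Involutive fun p : (X → V) × V => (Function.update p.1 c p.2, p.1 c) := by
    intro p; simp
  have h1 : 𝔼 p : (X → V) × V, G (Function.update p.1 c p.2) = 𝔼 p : (X → V) × V, G p.1 :=
    Fintype.expect_equiv hinv.toPerm _ _ fun _ => rfl
  rw [← univ_product_univ, expect_product, expect_product] at h1
  simp only [expect_const univ_nonempty] at h1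
  exact h1.symm

lemma expect_piecewise (S : Finset X) (G : (X → V) → ℝ) :
    𝔼 y, G y = 𝔼 y : X → V, 𝔼 z : X → V, G (S.piecewise y z) := by
  have hinv : Function.Involutive
      fun p : (X → V) × (X → V) => (S.piecewise p.1 p.2, S.piecewise p.2 p.1) := by
    intro p
    ext c <;> by_cases hc : c ∈ S <;> simp [hc]
  have h1 : 𝔼 p : (X → V) × (X → V), G (S.piecewise p.1 p.2) =
      𝔼 p : (X → V) × (X → V), G p.1 :=
    Fintype.expect_equiv hinv.toPerm _ _ fun _ => rfl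
  rw [← univ_product_univ, expect_product, expect_product] at h1
  simp only [expect_const univ_nonempty] at h1
  exact h1.symm

lemma expect_indep (S : Finset X) (a b : (X → V) → ℝ)
    (ha : ∀ y z, a (S.piecewise y z) = a y) (hb : ∀ y z, b (S.piecewise y z) = b z) :
    𝔼 y, a y * b y = (𝔼 y, a y) * 𝔼 y, b y := by
  rw [expect_piecewise S, expect_mul_expect]
  simp only [ha, hb]

lemma expect_coord (c : X) (g : V → ℝ) : 𝔼 y : X → V, g (y c) = 𝔼 s, g s := by
  rw [expect_update c]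
  simp

lemma expect_two_coord {c d : X} (h : c ≠ d) (g : V → V → ℝ) :
    𝔼 y : X → V, g (y c) (y d) = 𝔼 s, 𝔼 t, g s t := by
  rw [expect_update c]
  simp only [Function.update_self, Function.update_of_ne h.symm]
  rw [expect_comm]
  exact expect_congr rfl fun s _ => expect_coord d (g s)

end resample

/-- `a` does not depend on the coordinate `c` -/
def Ind {X V : Type} [DecidableEq X] (c : X) (a : (X → V) → ℝ) : Prop :=
  ∀ y s, a (Function.update y c s) = a y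

lemma Ind.mul {X V : Type} [DecidableEq X] {c : X} {a b : (X → V) → ℝ} (ha : Ind c a)
    (hb : Ind c b) : Ind c fun y => a y * b y := fun y s => by simp only [ha y s, hb y s]

/-- the product of the kernel over a set of oriented edges -/
def PE {X V : Type} [AddCommGroup V] (k0 : V → ℝ) (E : Finset (X × X)) (y : X → V) : ℝ :=
  ∏ e ∈ E, k0 (y e.2 - y e.1)

/-- the `L²` norm -/
noncomputable def nm {Y : Type} [Fintype Y] (a : Y → ℝ) : ℝ := √(𝔼 y, a y ^ 2)

lemma nm_nonneg {Y : Type} [Fintype Y] (a : Y → ℝ) : 0 ≤ nm a := Real.sqrt_nonneg _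

lemma expect_sq_nonneg {Y : Type} [Fintype Y] (a : Y → ℝ) : 0 ≤ 𝔼 y, a y ^ 2 :=
  expect_nonneg fun _ _ => sq_nonneg _

lemma nm_sq {Y : Type} [Fintype Y] (a : Y → ℝ) : nm a ^ 2 = 𝔼 y, a y ^ 2 :=
  Real.sq_sqrt (expect_sq_nonneg a)

lemma nm_mul_le {Y : Type} [Fintype Y] (a p : Y → ℝ) {M : ℝ} (hM : 0 ≤ M)
    (hp : ∀ y, |p y| ≤ M) : nm (fun y => a y * p y) ≤ M * nm a := by
  refine Real.sqrt_le_iff.2 ⟨mul_nonneg hM (nm_nonneg a), ?_⟩
  rw [mul_pow, nm_sq, mul_expect]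
  refine expect_le_expect fun y _ => ?_
  rw [mul_pow, mul_comm]
  refine mul_le_mul_of_nonneg_right ?_ (sq_nonneg _)
  rw [← sq_abs]
  exact pow_le_pow_left₀ (abs_nonneg _) (hp y) 2

lemma expect_mul_le_nm {Y : Type} [Fintype Y] (a b : Y → ℝ) :
    𝔼 y, a y * b y ≤ nm a * nm b := by
  refine le_trans (le_abs_self _) (abs_le_of_sq_le_sq' ?_ (mul_nonneg (nm_nonneg a) (nm_nonneg b))
    |> fun h => abs_le.2 h)
  rw [mul_pow, nm_sq, nm_sq]
  exact expect_mul_sq_le_sq_mul_sq _ _ _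

section edge
variable {X V : Type} [Fintype X] [DecidableEq X] [Fintype V] [AddCommGroup V]
  {k0 : V → ℝ} {K σ : ℝ}

omit [Fintype X] [Fintype V] [DecidableEq X] in
lemma PE_nonneg (h0 : ∀ t, 0 ≤ k0 t) (E : Finset (X × X)) (y : X → V) : 0 ≤ PE k0 E y :=
  prod_nonneg fun _ _ => h0 _

omit [Fintype X] [Fintype V] [DecidableEq X] in
lemma PE_le (h0 : ∀ t, 0 ≤ k0 t) (hK : ∀ t, k0 t ≤ K) (E : Finset (X × X)) (y : X → V) :
    PE k0 E y ≤ K ^ E.card := by
  unfold PE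
  rw [← prod_const]
  exact prod_le_prod (fun _ _ => h0 _) fun _ _ => hK _

omit [Fintype X] [Fintype V] in
lemma PE_le_of_subset (h0 : ∀ t, 0 ≤ k0 t) (hK : ∀ t, k0 t ≤ K) (h1 : 1 ≤ K)
    {E E' : Finset (X × X)} (h : E' ⊆ E) {N : ℕ} (hN : E.card ≤ N) (y : X → V) :
    PE k0 E y ≤ K ^ N * PE k0 E' y := by
  have h2 : PE k0 E y = PE k0 (E \ E') y * PE k0 E' y := (prod_sdiff h).symm
  rw [h2]
  refine mul_le_mul_of_nonneg_right ((PE_le h0 hK _ y).trans ?_) (PE_nonneg h0 _ y)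
  exact pow_le_pow_right₀ h1 ((card_le_card sdiff_subset).trans hN)

omit [Fintype X] [Fintype V] in
lemma PE_ind {E : Finset (X × X)} {c : X} (h : ∀ e ∈ E, e.1 ≠ c ∧ e.2 ≠ c) :
    Ind c (PE k0 E) := fun y s =>
  prod_congr rfl fun e he => by
    rw [Function.update_of_ne (h e he).1, Function.update_of_ne (h e he).2]

/-- the edge lemma -/
lemma edge_one (hop : OpSmall k0 σ) (hσ : 0 ≤ σ) {c d : X} (hcd : c ≠ d)
    {a b : (X → V) → ℝ} (ha : Ind d a) (hb : Ind c b) :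
    |𝔼 y, a y * b y * (k0 (y d - y c) - 1)| ≤ σ * (nm a * nm b) := by
  have key : ∀ y : X → V, |𝔼 s, 𝔼 t, a (Function.update y c s) * b (Function.update y d t) *
      (k0 (t - s) - 1)| ≤ σ * (nm (fun s => a (Function.update y c s)) *
        nm fun t => b (Function.update y d t)) := by
    intro y
    refine abs_le.2 (abs_le_of_sq_le_sq' ?_
      (mul_nonneg hσ (mul_nonneg (nm_nonneg _) (nm_nonneg _))))
    rw [mul_pow, mul_pow, nm_sq, nm_sq, ← mul_assoc]
    exact hop _ _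
  have h1 : 𝔼 y, a y * b y * (k0 (y d - y c) - 1) = 𝔼 y : X → V, 𝔼 s, 𝔼 t,
      a (Function.update y c s) * b (Function.update y d t) * (k0 (t - s) - 1) := by
    rw [expect_update d]
    rw [expect_update c fun y => 𝔼 t, a (Function.update y d t) * b (Function.update y d t) *
      (k0 (Function.update y d t d - Function.update y d t c) - 1)]
    refine expect_congr rfl fun y _ => expect_congr rfl fun s _ => expect_congr rfl fun t _ => ?_
    rw [ha, Function.update_self, Function.update_of_ne hcd, Function.update_self,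
      Function.update_comm hcd, hb]
  rw [h1]
  refine (abs_expect_le _ _).trans ((expect_le_expect fun y _ => key y).trans ?_)
  rw [← mul_expect]
  refine mul_le_mul_of_nonneg_left ((expect_mul_le_nm _ _).trans (le_of_eq ?_)) hσ
  congr 1
  · unfold nm
    congr 1
    rw [expect_update c fun y => a y ^ 2]
    exact expect_congr rfl fun y _ => nm_sq _
  · unfold nm
    congr 1
    rw [expect_update d fun y => b y ^ 2]
    exact expect_congr rfl fun y _ => nm_sq _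

/-- one step of the telescoping -/
lemma edge_step (h0 : ∀ t, 0 ≤ k0 t) (hK : ∀ t, k0 t ≤ K) (hop : OpSmall k0 σ) (hσ : 0 ≤ σ)
    {c d : X} (hcd : c ≠ d) {E : Finset (X × X)} (h1 : ∀ e ∈ E, e.1 ≠ e.2)
    (h2 : (c, d) ∉ E) (h3 : (d, c) ∉ E)
    {a b : (X → V) → ℝ} (ha : Ind d a) (hb : Ind c b) :
    |𝔼 y, a y * b y * ((k0 (y d - y c) - 1) * PE k0 E y)| ≤ σ * K ^ E.card * (nm a * nm b) := by
  have hK0 : 0 ≤ K := (h0 0).trans (hK 0)
  set E1 := E.filter fun e => e.1 ≠ d ∧ e.2 ≠ d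
  set E2 := E.filter fun e => ¬ (e.1 ≠ d ∧ e.2 ≠ d)
  have hsplit : ∀ y, PE k0 E y = PE k0 E1 y * PE k0 E2 y := fun y =>
    (prod_filter_mul_prod_filter_not E _ _).symm
  have hcard : E1.card + E2.card = E.card := card_filter_add_card_filter_not _
  have hi1 : Ind d (PE k0 E1) := PE_ind fun e he => (mem_filter.1 he).2
  have hi2 : Ind c (PE k0 E2) := by
    refine PE_ind fun e he => ?_
    obtain ⟨he1, he2⟩ := mem_filter.1 he
    obtain ⟨u, v⟩ := e
    have := h1 _ he1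
    simp only [ne_eq, not_and_or, not_not] at he2 this ⊢
    constructor
    · rintro rfl
      rcases he2 with h | h
      · exact hcd h
      · subst h; exact h2 he1
    · rintro rfl
      rcases he2 with h | h
      · subst h; exact h3 he1
      · exact hcd h
  have h4 := edge_one hop hσ hcd (ha.mul hi1) (hb.mul hi2)
  have h5 : 𝔼 y, a y * b y * ((k0 (y d - y c) - 1) * PE k0 E y) =
      𝔼 y, a y * PE k0 E1 y * (b y * PE k0 E2 y) * (k0 (y d - y c) - 1) :=
    expect_congr rfl fun y _ => by rw [hsplit]; ring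
  rw [h5]
  refine h4.trans ?_
  have h6 := nm_mul_le a (PE k0 E1) (pow_nonneg hK0 E1.card) fun y => by
    rw [abs_of_nonneg (PE_nonneg h0 _ y)]; exact PE_le h0 hK _ y
  have h7 := nm_mul_le b (PE k0 E2) (pow_nonneg hK0 E2.card) fun y => by
    rw [abs_of_nonneg (PE_nonneg h0 _ y)]; exact PE_le h0 hK _ y
  rw [mul_assoc]
  refine mul_le_mul_of_nonneg_left ?_ hσ
  calc _ ≤ (K ^ E1.card * nm a) * (K ^ E2.card * nm b) :=
        mul_le_mul h6 h7 (nm_nonneg _) (mul_nonneg (pow_nonneg hK0 _) (nm_nonneg _))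
    _ = _ := by rw [← hcard, pow_add]; ring

/-- the telescoped edge lemma for a simple graph of edges -/
lemma edges_le (h0 : ∀ t, 0 ≤ k0 t) (hK : ∀ t, k0 t ≤ K) (hK1 : 1 ≤ K) (hop : OpSmall k0 σ)
    (hσ : 0 ≤ σ) {a b : (X → V) → ℝ} {N : ℕ} (E : Finset (X × X)) (hN : E.card ≤ N)
    (h1 : ∀ e ∈ E, e.1 ≠ e.2) (h2 : ∀ e ∈ E, e.swap ∉ E)
    (hab : ∀ e ∈ E, (Ind e.2 a ∧ Ind e.1 b) ∨ (Ind e.1 a ∧ Ind e.2 b)) :
    |𝔼 y, a y * b y * (PE k0 E y - 1)| ≤ N * σ * K ^ N * (nm a * nm b) := by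
  have hab0 : 0 ≤ nm a * nm b := mul_nonneg (nm_nonneg _) (nm_nonneg _)
  suffices h : |𝔼 y, a y * b y * (PE k0 E y - 1)| ≤ E.card * σ * K ^ N * (nm a * nm b) by
    refine h.trans ?_
    have : (E.card : ℝ) ≤ N := by exact_mod_cast hN
    have hK0 : 0 ≤ K ^ N := by positivity
    gcongr
  induction E using Finset.induction_on with
  | empty => simp [PE]
  | insert e E he ih =>
    obtain ⟨c, d⟩ := e
    have hc : (insert (c, d) E).card = E.card + 1 := card_insert_of_notMem he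
    have ih' := ih (by omega) (fun e h => h1 e (mem_insert_of_mem h))
      (fun e h h' => h2 e (mem_insert_of_mem h) (mem_insert_of_mem h'))
      fun e h => hab e (mem_insert_of_mem h)
    have hcd : c ≠ d := h1 _ (mem_insert_self _ _)
    have h3 : (d, c) ∉ E := fun h => h2 _ (mem_insert_self _ _) (mem_insert_of_mem h)
    have h4 : |𝔼 y, a y * b y * ((k0 (y d - y c) - 1) * PE k0 E y)| ≤
        σ * K ^ E.card * (nm a * nm b) := by
      rcases hab _ (mem_insert_self _ _) with h | h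
      · exact edge_step h0 hK hop hσ hcd (fun e h => h1 e (mem_insert_of_mem h)) he h3 h.1 h.2
      · have := edge_step h0 hK hop hσ hcd (fun e h => h1 e (mem_insert_of_mem h)) he h3 h.2 h.1
        simpa only [mul_comm (a _) (b _), mul_comm (nm a)] using this
    have h5 : 𝔼 y, a y * b y * (PE k0 (insert (c, d) E) y - 1) =
        (𝔼 y, a y * b y * ((k0 (y d - y c) - 1) * PE k0 E y)) +
          𝔼 y, a y * b y * (PE k0 E y - 1) := by
      rw [← expect_add_distrib]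
      refine expect_congr rfl fun y _ => ?_
      have : PE k0 (insert (c, d) E) y = k0 (y d - y c) * PE k0 E y := prod_insert he
      rw [this]; ring
    have h6 : K ^ E.card ≤ K ^ N := pow_le_pow_right₀ hK1 (by omega)
    have h7 : σ * K ^ E.card * (nm a * nm b) ≤ σ * K ^ N * (nm a * nm b) := by gcongr
    rw [h5, hc]
    refine (abs_add_le _ _).trans ?_
    push_cast
    linarith

end edge

end Crest.Agent.N41.Local
end

-- ▼ part N41/Local/Mu
section

/-!
# Row 41, module A: the graph `Gam`, the measures `mu π`, and reflection positivity of the mixture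
-/

set_option autoImplicit false
open Finset
open scoped BigOperators

namespace Crest.Agent.N41.Local

section graph
variable {D : ℕ}

/-- a tuple of hexagon maps acting on the torus -/
def act (Φ : Fin D → H → H) (c : Om D) : Om D := fun i => Φ i (c i)

/-- the forced pairs -/
def Gam (D : ℕ) : Finset (Om D × Om D) :=
  univ.filter fun e => (∀ i, Rel (e.1 i) (e.2 i)) ∧ ∃ i, rho (e.1 i) (e.2 i)

lemma mem_Gam {e : Om D × Om D} :
    e ∈ Gam D ↔ (∀ i, Rel (e.1 i) (e.2 i)) ∧ ∃ i, rho (e.1 i) (e.2 i) := by simp [Gam]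

lemma Gam_ne {e : Om D × Om D} (he : e ∈ Gam D) : e.1 ≠ e.2 := by
  obtain ⟨-, i, hi⟩ := mem_Gam.1 he
  exact fun h => rho_ne _ _ hi (congrFun h i)

lemma Gam_swap {e : Om D × Om D} (he : e ∈ Gam D) : e.swap ∉ Gam D := by
  obtain ⟨-, i, hi⟩ := mem_Gam.1 he
  exact fun h => not_Rel_of_rho _ _ hi ((mem_Gam.1 h).1 i)

lemma Gam_mir (i : Fin D) (j : H) {e : Om D × Om D} (he : e ∈ Gam D) :
    (dir i (mir j) e.1, dir i (mir j) e.2) ∈ Gam D := by
  obtain ⟨h1, l, hl⟩ := mem_Gam.1 he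
  refine mem_Gam.2 ⟨fun l => ?_, l, ?_⟩
  · by_cases h : l = i
    · subst h; simpa [Rel_mir] using h1 l
    · simpa [dir_apply_ne h] using h1 l
  · by_cases h : l = i
    · subst h; simpa [rho_mir] using hl
    · simpa [dir_apply_ne h] using hl

/-- the forced pairs inside the image of `π` -/
def edgesOf (π : Om D → Om D) : Finset (Om D × Om D) :=
  (Gam D).filter fun e => e.1 ∈ univ.image π ∧ e.2 ∈ univ.image π

lemma mem_edgesOf {π : Om D → Om D} {e : Om D × Om D} :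
    e ∈ edgesOf π ↔ e ∈ Gam D ∧ (∃ c, π c = e.1) ∧ ∃ c, π c = e.2 := by simp [edgesOf]

lemma edgesOf_subset (π : Om D → Om D) : edgesOf π ⊆ Gam D := filter_subset _ _

lemma edgesOf_comp_subset (π τ : Om D → Om D) : edgesOf (π ∘ τ) ⊆ edgesOf π := by
  intro e he
  obtain ⟨h1, ⟨c, hc⟩, c', hc'⟩ := mem_edgesOf.1 he
  exact mem_edgesOf.2 ⟨h1, ⟨_, hc⟩, _, hc'⟩

lemma edgesOf_comp_mir (π : Om D → Om D) (i : Fin D) (j : H) :
    edgesOf (π ∘ dir i (mir j)) = edgesOf π := by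
  refine (edgesOf_comp_subset _ _).antisymm ?_
  have : π = (π ∘ dir i (mir j)) ∘ dir i (mir j) := by funext c; simp [dir_mir_mir]
  conv_lhs => rw [this]
  exact edgesOf_comp_subset _ _

lemma edgesOf_id : edgesOf (id : Om D → Om D) = Gam D := by
  ext e; simp [mem_edgesOf]

lemma act_update_comp (Φ : Fin D → H → H) (i : Fin D) (ψ φ : H → H) :
    act (Function.update Φ i ψ) ∘ dir i φ = act (Function.update Φ i (ψ ∘ φ)) := by
  funext c l
  by_cases h : l = i
  · subst h; simp [act]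
  · simp [act, h, dir_apply_ne h]

lemma dir_comp_act_update (Φ : Fin D → H → H) (i : Fin D) (ψ φ : H → H) :
    dir i φ ∘ act (Function.update Φ i ψ) = act (Function.update Φ i (φ ∘ ψ)) := by
  funext c l
  by_cases h : l = i
  · subst h; simp [act]
  · simp [act, h, dir_apply_ne h]

lemma act_update_same (Φ : Fin D → H → H) (i : Fin D) (ψ : H → H) (c : Om D) :
    act (Function.update Φ i ψ) c i = ψ (c i) := by simp [act]

lemma act_id : act (fun (_ : Fin D) => (id : H → H)) = id := rfl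

end graph

section mu
variable {D : ℕ} {V : Type} [Fintype V] [AddCommGroup V] {k0 : V → ℝ} {K σ : ℝ}

/-- the measure attached to a self-map of the torus -/
noncomputable def mu (k0 : V → ℝ) (π : Om D → Om D) (F : (Om D → V) → ℝ) : ℝ :=
  𝔼 y : Om D → V, F (y ∘ π) * PE k0 (edgesOf π) y

lemma mu_nonneg (h0 : ∀ t, 0 ≤ k0 t) (π : Om D → Om D) {F : (Om D → V) → ℝ}
    (hF : ∀ x, 0 ≤ F x) : 0 ≤ mu k0 π F :=
  expect_nonneg fun y _ => mul_nonneg (hF _) (PE_nonneg h0 _ y)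

omit [AddCommGroup V] in
lemma expect_comp_mir (i : Fin D) (j : H) (Φ : (Om D → V) → ℝ) :
    𝔼 y : Om D → V, Φ (y ∘ dir i (mir j)) = 𝔼 y, Φ y := by
  rw [Fintype.expect_eq_sum_div_card, Fintype.expect_eq_sum_div_card, sum_comp_mir]

omit [Fintype V] in
lemma PE_comp_mir (π : Om D → Om D) (i : Fin D) (j : H) (y : Om D → V) :
    PE k0 (edgesOf π) (y ∘ dir i (mir j)) = PE k0 (edgesOf (dir i (mir j) ∘ π)) y := by
  unfold PE
  refine prod_nbij' (fun e => (dir i (mir j) e.1, dir i (mir j) e.2))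
    (fun e => (dir i (mir j) e.1, dir i (mir j) e.2)) ?_ ?_ ?_ ?_ ?_
  · intro e he
    obtain ⟨h1, ⟨c, hc⟩, c', hc'⟩ := mem_edgesOf.1 he
    exact mem_edgesOf.2 ⟨Gam_mir i j h1, ⟨c, by simp [hc]⟩, c', by simp [hc']⟩
  · intro e he
    obtain ⟨h1, ⟨c, hc⟩, c', hc'⟩ := mem_edgesOf.1 he
    exact mem_edgesOf.2 ⟨Gam_mir i j h1, ⟨c, by simp [← hc, dir_mir_mir]⟩, c',
      by simp [← hc', dir_mir_mir]⟩
  · intro e _; simp [dir_mir_mir]
  · intro e _; simp [dir_mir_mir]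
  · intro e _; rfl

lemma mu_mir_comp (π : Om D → Om D) (i : Fin D) (j : H) (F : (Om D → V) → ℝ) :
    mu k0 (dir i (mir j) ∘ π) F = mu k0 π F := by
  unfold mu
  rw [← expect_comp_mir i j fun y => F (y ∘ π) * PE k0 (edgesOf π) y]
  exact expect_congr rfl fun y _ => by rw [PE_comp_mir]; rfl

lemma mu_comp_mir (π : Om D → Om D) (i : Fin D) (j : H) (F : (Om D → V) → ℝ) :
    mu k0 π (fun x => F (x ∘ dir i (mir j))) = mu k0 (π ∘ dir i (mir j)) F := by
  unfold mu
  rw [edgesOf_comp_mir]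
  rfl

lemma mu_shift (π : Om D → Om D) (F : (Om D → V) → ℝ) (t : V) :
    mu k0 π (fun x => F fun c => x c + t) = mu k0 π F := by
  unfold mu
  refine Fintype.expect_equiv (Equiv.addRight fun _ => t) _ _ fun y => ?_
  congr 1
  exact prod_congr rfl fun e _ => by simp

omit [Fintype V] in
lemma loc_congr (π : Om D → Om D) (F : (Om D → V) → ℝ) {y y' : Om D → V}
    (h : ∀ c, y (π c) = y' (π c)) :
    F (y ∘ π) * PE k0 (edgesOf π) y = F (y' ∘ π) * PE k0 (edgesOf π) y' := by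
  congr 1
  · congr 1; funext c; exact h c
  · refine prod_congr rfl fun e he => ?_
    obtain ⟨-, ⟨c, hc⟩, c', hc'⟩ := mem_edgesOf.1 he
    rw [← hc, ← hc', h, h]

omit [Fintype V] in
lemma loc_ind (π : Om D → Om D) (F : (Om D → V) → ℝ) {d : Om D} (hd : ∀ c, π c ≠ d) :
    Ind d fun y => F (y ∘ π) * PE k0 (edgesOf π) y := fun _ _ =>
  loc_congr π F fun c => Function.update_of_ne (hd c) _ _

omit [Fintype V] in
lemma PE_edgesOf_le (h0 : ∀ t, 0 ≤ k0 t) (hK : ∀ t, k0 t ≤ K) (hK1 : 1 ≤ K) (π : Om D → Om D)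
    (y : Om D → V) : PE k0 (edgesOf π) y ≤ K ^ (Gam D).card :=
  (PE_le h0 hK _ y).trans (pow_le_pow_right₀ hK1 (card_le_card (edgesOf_subset π)))

/-- the diagonal terms -/
noncomputable def NN (k0 : V → ℝ) (Φ : Fin D → H → H) (i : Fin D) (F : (Om D → V) → ℝ)
    (ψ : H → H) : ℝ := mu k0 (act (Function.update Φ i ψ)) fun x => F x ^ 2

/-- the terms of the bilinear form -/
noncomputable def BB (k0 : V → ℝ) (Φ : Fin D → H → H) (i : Fin D) (j : H) (F : (Om D → V) → ℝ)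
    (ψ : H → H) : ℝ := mu k0 (act (Function.update Φ i ψ))
      fun x => F (x ∘ dir i (fold j)) * F (x ∘ dir i (fold (j + 3)))

lemma BB_eq (Φ : Fin D → H → H) (i : Fin D) (j : H) (F : (Om D → V) → ℝ) (ψ : H → H) :
    BB k0 Φ i j F ψ = 𝔼 y : Om D → V, F (y ∘ act (Function.update Φ i (ψ ∘ fold j))) *
      F (y ∘ act (Function.update Φ i (ψ ∘ fold (j + 3)))) *
        PE k0 (edgesOf (act (Function.update Φ i ψ))) y := by
  unfold BB mu
  simp only [← act_update_comp]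
  rfl

lemma NN_nonneg (h0 : ∀ t, 0 ≤ k0 t) (Φ : Fin D → H → H) (i : Fin D) (F : (Om D → V) → ℝ)
    (ψ : H → H) : 0 ≤ NN k0 Φ i F ψ := mu_nonneg h0 _ fun _ => sq_nonneg _

lemma BB_folded (Φ : Fin D → H → H) (i : Fin D) (j : H) (F : (Om D → V) → ℝ) {ψ : H → H}
    (h : ψ ∘ mir j = ψ) : BB k0 Φ i j F ψ = NN k0 Φ i F ψ := by
  rw [BB_eq, comp_fold_of_folded h, comp_fold3_of_folded h]
  exact expect_congr rfl fun y _ => by rw [← sq]

/-- non-folded non-injective maps are dominated by their two folds -/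
lemma BB_allowed (h0 : ∀ t, 0 ≤ k0 t) (hK : ∀ t, k0 t ≤ K) (hK1 : 1 ≤ K) {ε l : ℝ} (hε : 0 ≤ ε)
    (hl : 1 ≤ l) (Φ : Fin D → H → H) (i : Fin D) (j : H) (F : (Om D → V) → ℝ) {ψ : H → H}
    (hψ : Allowed ψ) (h : ψ ∘ mir j ≠ ψ) :
    -(2 * l * (wt ε l ψ * BB k0 Φ i j F ψ)) ≤ K ^ (Gam D).card *
      (wt ε l (ψ ∘ fold j) * NN k0 Φ i F (ψ ∘ fold j) +
        wt ε l (ψ ∘ fold (j + 3)) * NN k0 Φ i F (ψ ∘ fold (j + 3))) := by
  rw [BB_eq, wt_of_allowed hψ, wt_of_allowed (allowed_comp_fold j hψ.2),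
    wt_of_allowed (allowed_comp_fold (j + 3) hψ.2)]
  unfold NN mu
  simp only [mul_expect, ← expect_add_distrib, ← expect_neg_distrib]
  refine expect_le_expect fun y _ => ?_
  set u := F (y ∘ act (Function.update Φ i (ψ ∘ fold j)))
  set v := F (y ∘ act (Function.update Φ i (ψ ∘ fold (j + 3))))
  have hP := PE_nonneg h0 (edgesOf (act (Function.update Φ i ψ))) y
  have hc := card_le_card (edgesOf_subset (act (Function.update Φ i ψ)))
  have hP1 := PE_le_of_subset h0 hK hK1 (edgesOf_comp_subset (act (Function.update Φ i ψ))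
    (dir i (fold j))) hc y
  have hP2 := PE_le_of_subset h0 hK hK1 (edgesOf_comp_subset (act (Function.update Φ i ψ))
    (dir i (fold (j + 3)))) hc y
  rw [act_update_comp] at hP1 hP2
  set P := PE k0 (edgesOf (act (Function.update Φ i ψ))) y
  set P1 := PE k0 (edgesOf (act (Function.update Φ i (ψ ∘ fold j)))) y
  set P2 := PE k0 (edgesOf (act (Function.update Φ i (ψ ∘ fold (j + 3))))) y
  set p := En (ψ ∘ fold j)
  set q := En (ψ ∘ fold (j + 3))
  have hE : l * l ^ (2 * En ψ) ≤ l ^ p * l ^ q := by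
    rw [← pow_succ', ← pow_add]
    exact pow_le_pow_right₀ hl (En_fold j ψ h)
  have hl0 : 0 ≤ l * l ^ (2 * En ψ) := by positivity
  have h1 : -(2 * (l * l ^ (2 * En ψ)) * (u * v)) ≤ l ^ (2 * p) * u ^ 2 + l ^ (2 * q) * v ^ 2 := by
    have h2 : -(u * v) ≤ |u| * |v| := by rw [← abs_mul]; exact neg_le_abs _
    have h3 : 0 ≤ |u| * |v| := by positivity
    have h4 : 2 * (l ^ p * |u|) * (l ^ q * |v|) ≤ (l ^ p * |u|) ^ 2 + (l ^ q * |v|) ^ 2 :=
      two_mul_le_add_sq _ _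
    rw [mul_pow, mul_pow, sq_abs, sq_abs, ← pow_mul, ← pow_mul, mul_comm p 2, mul_comm q 2] at h4
    nlinarith [mul_le_mul_of_nonneg_left h2 hl0, mul_le_mul_of_nonneg_right hE h3]
  have h5 : 0 ≤ l ^ (2 * p) * u ^ 2 := by positivity
  have h6 : 0 ≤ l ^ (2 * q) * v ^ 2 := by positivity
  have h7 := mul_le_mul_of_nonneg_right h1 hP
  have h8 := mul_le_mul_of_nonneg_left hP1 h5
  have h9 := mul_le_mul_of_nonneg_left hP2 h6
  have h10 : -(2 * (l * l ^ (2 * En ψ)) * (u * v)) * P ≤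
      K ^ (Gam D).card * (l ^ (2 * p) * u ^ 2 * P1 + l ^ (2 * q) * v ^ 2 * P2) := by nlinarith
  nlinarith [mul_le_mul_of_nonneg_left h10 hε]

/-- the identity map is dominated by its fold -/
lemma BB_id (h0 : ∀ t, 0 ≤ k0 t) (hK : ∀ t, k0 t ≤ K) (hK1 : 1 ≤ K) (hop : OpSmall k0 σ)
    (hσ : 0 ≤ σ) (Φ : Fin D → H → H) (i : Fin D) (j : H) (F : (Om D → V) → ℝ) :
    -BB k0 Φ i j F id ≤ ((Gam D).card * σ * K ^ (Gam D).card * K ^ (Gam D).card) *
      NN k0 Φ i F (fold j) := by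
  rw [BB_eq]
  simp only [Function.id_comp]
  set π := act (Function.update Φ i id) with hπ
  set π1 := act (Function.update Φ i (fold j)) with hπ1
  set π2 := act (Function.update Φ i (fold (j + 3))) with hπ2
  have e1 : π1 = π ∘ dir i (fold j) := by rw [hπ, act_update_comp]; rfl
  have e2 : π2 = π ∘ dir i (fold (j + 3)) := by rw [hπ, act_update_comp]; rfl
  have e3 : dir i (mir j) ∘ π1 = π2 := by
    rw [hπ1, dir_comp_act_update]; congr 2; funext t; exact mir_fold j t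
  have hp : ∀ c, π c i = c i := fun c => act_update_same Φ i id c
  have hp1 : ∀ c, inP j (π1 c i) := fun c => by rw [hπ1, act_update_same]; exact inP_fold _ _
  have hp2 : ∀ c, ¬ inP j (π2 c i) := fun c => by
    rw [hπ2, act_update_same]; exact not_inP_fold3 _ _
  set a : (Om D → V) → ℝ := fun y => F (y ∘ π1) * PE k0 (edgesOf π1) y with ha
  set b : (Om D → V) → ℝ := fun y => F (y ∘ π2) * PE k0 (edgesOf π2) y with hb
  have hab : ∀ y, a (y ∘ dir i (mir j)) = b y := fun y => by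
    simp only [ha, hb]; rw [PE_comp_mir, e3, Function.comp_assoc, e3]
  have hdisj : Disjoint (edgesOf π1) (edgesOf π2) := by
    refine disjoint_left.2 fun e h1 h2 => ?_
    obtain ⟨-, ⟨c, hc⟩, -⟩ := mem_edgesOf.1 h1
    obtain ⟨-, ⟨c', hc'⟩, -⟩ := mem_edgesOf.1 h2
    exact hp2 c' (hc' ▸ hc ▸ hp1 c)
  have hsub : edgesOf π1 ∪ edgesOf π2 ⊆ edgesOf π :=
    union_subset (e1 ▸ edgesOf_comp_subset _ _) (e2 ▸ edgesOf_comp_subset _ _)
  set Ex := edgesOf π \ (edgesOf π1 ∪ edgesOf π2)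
  have hP : ∀ y, PE k0 (edgesOf π) y =
      PE k0 Ex y * (PE k0 (edgesOf π1) y * PE k0 (edgesOf π2) y) := fun y => by
    unfold PE; rw [← prod_union hdisj, prod_sdiff hsub]
  have hr1 : ∀ c, inP j (π c i) → ∃ c', π1 c' = π c := fun c h =>
    ⟨c, by rw [e1, Function.comp_apply, dir_eq_self i (fold_of_inP _ _ (hp c ▸ h))]⟩
  have hr2 : ∀ c, ¬ inP j (π c i) → ∃ c', π2 c' = π c := fun c h => by
    refine ⟨c, ?_⟩
    rw [e2, Function.comp_apply, dir_eq_self i]
    rw [hp c, ← mir_mir j (c i), inP_mir, not_not] at h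
    rw [← fold3_mir, fold3_of_inP _ _ h, mir_mir]
  have hia : ∀ d : Om D, ¬ inP j (d i) → Ind d a := fun d hd =>
    loc_ind π1 F fun c h => hd (h ▸ hp1 c)
  have hib : ∀ d : Om D, inP j (d i) → Ind d b := fun d hd =>
    loc_ind π2 F fun c h => hp2 c (h ▸ hd)
  have hEx : Ex ⊆ Gam D := sdiff_subset.trans (edgesOf_subset π)
  have h1 := edges_le h0 hK hK1 hop hσ (a := a) (b := b) Ex (card_le_card hEx)
    (fun e he => Gam_ne (hEx he)) (fun e he h => Gam_swap (hEx he) (hEx h)) fun e he => by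
      obtain ⟨he1, he2⟩ := mem_sdiff.1 he
      obtain ⟨hG, ⟨c, hc⟩, c', hc'⟩ := mem_edgesOf.1 he1
      by_cases h1 : inP j (e.1 i) <;> by_cases h2 : inP j (e.2 i)
      · exact absurd (mem_union_left _ (mem_edgesOf.2
          ⟨hG, hc ▸ hr1 c (hc ▸ h1), hc' ▸ hr1 c' (hc' ▸ h2)⟩)) he2
      · exact Or.inl ⟨hia _ h2, hib _ h1⟩
      · exact Or.inr ⟨hia _ h1, hib _ h2⟩
      · exact absurd (mem_union_right _ (mem_edgesOf.2
          ⟨hG, hc ▸ hr2 c (hc ▸ h1), hc' ▸ hr2 c' (hc' ▸ h2)⟩)) he2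
  have h2 : 𝔼 y, a y * b y = (𝔼 y, a y) * 𝔼 y, b y := by
    refine expect_indep (half i j) a b (fun y z => loc_congr π1 F fun c => ?_)
      fun y z => loc_congr π2 F fun c => ?_
    · exact piecewise_eq_of_mem _ _ _ (mem_half.2 (hp1 c))
    · exact piecewise_eq_of_notMem _ _ _ fun h => hp2 c (mem_half.1 h)
  have h3 : 𝔼 y, b y = 𝔼 y, a y := by
    rw [← expect_comp_mir i j a]; simp only [hab]
  have h4 : nm b = nm a := by
    unfold nm; rw [← expect_comp_mir i j fun y => a y ^ 2]; simp only [hab]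
  have h5 : nm a * nm a ≤ K ^ (Gam D).card * NN k0 Φ i F (fold j) := by
    rw [← sq, nm_sq]
    unfold NN mu
    rw [mul_expect]
    refine expect_le_expect fun y _ => ?_
    have h6 := PE_nonneg h0 (edgesOf π1) y
    have h7 := PE_edgesOf_le h0 hK hK1 π1 y
    have h8 := mul_le_mul_of_nonneg_left h7 (mul_nonneg (sq_nonneg (F (y ∘ π1))) h6)
    simp only [ha]
    nlinarith
  have h6 : 𝔼 y : Om D → V, F (y ∘ π1) * F (y ∘ π2) * PE k0 (edgesOf π) y =
      (𝔼 y, a y * b y) + 𝔼 y, a y * b y * (PE k0 Ex y - 1) := by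
    rw [← expect_add_distrib]
    exact expect_congr rfl fun y _ => by rw [hP]; simp only [ha, hb]; ring
  rw [h6, h2, h3]
  rw [h4] at h1
  have h7 : 0 ≤ (Gam D).card * σ * K ^ (Gam D).card := by positivity
  nlinarith [neg_abs_le (𝔼 y, a y * b y * (PE k0 Ex y - 1)), mul_self_nonneg (𝔼 y, a y),
    mul_le_mul_of_nonneg_left h5 h7]

/-- reflection positivity along one direction, the other directions being frozen -/
lemma sum_BB_nonneg (h0 : ∀ t, 0 ≤ k0 t) (hK : ∀ t, k0 t ≤ K) (hK1 : 1 ≤ K) (hop : OpSmall k0 σ)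
    (hσ : 0 ≤ σ) {ε l : ℝ} (hl : l = 6 ^ 6 * K ^ (Gam D).card)
    (hε : ε = 6 ^ 6 * ((Gam D).card * σ * K ^ (Gam D).card * K ^ (Gam D).card))
    (Φ : Fin D → H → H) (i : Fin D) (j : H) (F : (Om D → V) → ℝ) :
    0 ≤ ∑ ψ, wt ε l ψ * BB k0 Φ i j F ψ := by
  classical
  have hKG : 1 ≤ K ^ (Gam D).card := one_le_pow₀ hK1
  have hl1 : 1 ≤ l := by rw [hl]; nlinarith
  have hε0 : 0 ≤ ε := by rw [hε]; positivity
  set T := ∑ ψ ∈ univ.filter fun ψ : H → H => ψ ∘ mir j = ψ, wt ε l ψ * NN k0 Φ i F ψ with hT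
  have hnn : ∀ ψ, 0 ≤ wt ε l ψ * NN k0 Φ i F ψ := fun ψ =>
    mul_nonneg (wt_nonneg hε0 hl1 ψ) (NN_nonneg h0 Φ i F ψ)
  have hT0 : 0 ≤ T := sum_nonneg fun ψ _ => hnn ψ
  have hle : ∀ ψ : H → H, ψ ∘ mir j = ψ → wt ε l ψ * NN k0 Φ i F ψ ≤ T := fun ψ h =>
    single_le_sum (f := fun ψ => wt ε l ψ * NN k0 Φ i F ψ) (fun ψ _ => hnn ψ)
      (mem_filter.2 ⟨mem_univ _, h⟩)
  have hterm : ∀ ψ : H → H, ψ ∘ mir j ≠ ψ → -(T / 6 ^ 6) ≤ wt ε l ψ * BB k0 Φ i j F ψ := by
    intro ψ h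
    by_cases h1 : ψ = id
    · subst h1
      have h2 := BB_id h0 hK hK1 hop hσ Φ i j F
      have h3 := hle (fold j) (comp_fold_mir j id)
      have h4 : ε ≤ wt ε l (fold j) := by
        rw [wt_of_allowed (ψ := fold j) (allowed_comp_fold j (ψ := id) fun _ _ h => h)]
        exact le_mul_of_one_le_right hε0 (one_le_pow₀ hl1)
      have h5 := mul_le_mul_of_nonneg_right h4 (NN_nonneg h0 Φ i F (fold j))
      have h6 := h5.trans h3
      rw [wt_id, one_mul]
      rw [hε] at h6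
      linarith
    · by_cases h2 : Allowed ψ
      · have h3 := BB_allowed h0 hK hK1 hε0 hl1 Φ i j F h2 h
        have h4 := hle _ (comp_fold_mir j ψ)
        have h5 := hle _ (comp_fold3_mir j ψ)
        have h6 : -(2 * l * (wt ε l ψ * BB k0 Φ i j F ψ)) ≤ K ^ (Gam D).card * (T + T) :=
          h3.trans (mul_le_mul_of_nonneg_left (add_le_add h4 h5) (by linarith))
        set X := wt ε l ψ * BB k0 Φ i j F ψ
        rw [hl] at h6
        have h7 : K ^ (Gam D).card * (-(6 ^ 6 * X)) ≤ K ^ (Gam D).card * T := by linarith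
        have h8 := le_of_mul_le_mul_left h7 (by linarith)
        linarith
      · rw [wt_of_ne h1]
        simp only [wa, h2, if_false, zero_mul, neg_nonpos]
        positivity
  rw [← sum_filter_add_sum_filter_not univ fun ψ : H → H => ψ ∘ mir j = ψ]
  have h1 : ∑ ψ ∈ univ.filter fun ψ : H → H => ψ ∘ mir j = ψ, wt ε l ψ * BB k0 Φ i j F ψ = T :=
    sum_congr rfl fun ψ hψ => by rw [BB_folded Φ i j F (mem_filter.1 hψ).2]
  have h2 := card_nsmul_le_sum (univ.filter fun ψ : H → H => ¬ ψ ∘ mir j = ψ)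
    (fun ψ => wt ε l ψ * BB k0 Φ i j F ψ) _ fun ψ hψ => hterm ψ (mem_filter.1 hψ).2
  have h3 : ((univ.filter fun ψ : H → H => ¬ ψ ∘ mir j = ψ).card : ℝ) ≤ 6 ^ 6 := by
    have := card_le_univ (univ.filter fun ψ : H → H => ¬ ψ ∘ mir j = ψ)
    rw [Fintype.card_fun, Fintype.card_fin] at this
    exact_mod_cast this
  rw [nsmul_eq_mul] at h2
  rw [h1]
  have h4 := mul_le_mul_of_nonneg_right h3 (div_nonneg hT0 (by norm_num : (0 : ℝ) ≤ 6 ^ 6))
  linarith

/-- mirror invariance along one direction -/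
lemma sum_mu_mir (ε l : ℝ) (Φ : Fin D → H → H) (i : Fin D) (j : H) (F : (Om D → V) → ℝ) :
    ∑ ψ, wt ε l ψ * mu k0 (act (Function.update Φ i ψ)) (fun x => F (x ∘ dir i (mir j))) =
      ∑ ψ, wt ε l ψ * mu k0 (act (Function.update Φ i ψ)) F := by
  simp only [mu_comp_mir, act_update_comp]
  rw [sum_wt_mul, sum_wt_mul]
  congr 1
  · rw [← mu_mir_comp _ i j F, dir_comp_act_update]
    congr 3
    funext t; simp [mir_mir]
  · have hinv : Function.Involutive fun ψ : H → H => ψ ∘ mir j := comp_mir_mir j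
    refine Fintype.sum_equiv hinv.toPerm _ _ fun ψ => ?_
    simp [wa_comp_mir]

end mu

end Crest.Agent.N41.Local
end

-- ▼ part N41/Local/MaxCorr
section

/-!
# Row 41, module A: maximal correlation for the main term `mu id`
-/

set_option autoImplicit false
open Finset
open scoped BigOperators

namespace Crest.Agent.N41.Local

lemma expect_sq_le_of_sq_le_mul {Y : Type} [Fintype Y] {r f g : Y → ℝ} (hf : ∀ y, 0 ≤ f y)
    (hg : ∀ y, 0 ≤ g y) (h : ∀ y, r y ^ 2 ≤ f y * g y) :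
    (𝔼 y, r y) ^ 2 ≤ (𝔼 y, f y) * 𝔼 y, g y := by
  simp only [Fintype.expect_eq_sum_div_card]
  rw [div_pow, div_mul_div_comm, ← sq]
  exact div_le_div_of_nonneg_right
    (sum_sq_le_sum_mul_sum_of_sq_le_mul univ (fun y _ => hf y) (fun y _ => hg y) fun y _ => h y)
    (sq_nonneg _)

section
variable {X V : Type} [Fintype X] [DecidableEq X] [Fintype V] [AddCommGroup V]
  {k0 : V → ℝ} {K σ : ℝ}

/-- the conditional expectation operator of a star of edges is close to the mean -/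
lemma star_le (h0 : ∀ t, 0 ≤ k0 t) (hK : ∀ t, k0 t ≤ K) (hK1 : 1 ≤ K) (hop : OpSmall k0 σ)
    (hσ : 0 ≤ σ) {N : ℕ} (E : Finset (X × X)) (hN : E.card ≤ N)
    (h1 : ∀ e ∈ E, e.1 ≠ e.2) (h2 : ∀ e ∈ E, e.swap ∉ E) (w : X)
    (hw : ∀ e ∈ E, e.1 = w ∨ e.2 = w) (g : V → ℝ) :
    𝔼 y : X → V, (𝔼 s, g s * (PE k0 E (Function.update y w s) - 1)) ^ 2 ≤
      (N * σ * K ^ N) ^ 2 * 𝔼 s, g s ^ 2 := by
  set hh : (X → V) → ℝ := fun y => 𝔼 s, g s * (PE k0 E (Function.update y w s) - 1) with hhh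
  have hind : Ind w hh := fun y s => by simp [hhh]
  have hg : ∀ d, d ≠ w → Ind d fun y : X → V => g (y w) := fun d hd y s => by
    simp only [Function.update_of_ne hd.symm]
  have h3 := edges_le h0 hK hK1 hop hσ (a := fun y => g (y w)) (b := hh) E hN h1 h2 fun e he => by
    rcases hw e he with h | h
    · exact Or.inl ⟨hg _ fun h' => h1 e he (h.trans h'.symm), h ▸ hind⟩
    · exact Or.inr ⟨hg _ fun h' => h1 e he (h'.trans h.symm), h ▸ hind⟩
  have h4 : 𝔼 y : X → V, g (y w) * hh y * (PE k0 E y - 1) = nm hh ^ 2 := by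
    rw [nm_sq, expect_update w]
    refine expect_congr rfl fun y _ => ?_
    have e : hh y ^ 2 = hh y * 𝔼 s, g s * (PE k0 E (Function.update y w s) - 1) := sq _
    rw [e, mul_expect]
    simp only [Function.update_self, hind y]
    exact expect_congr rfl fun s _ => by ring
  have h5 : nm (fun y : X → V => g (y w)) = nm g := by
    unfold nm; rw [expect_coord w fun s => g s ^ 2]
  rw [h4, h5, abs_of_nonneg (sq_nonneg _)] at h3
  have hη : 0 ≤ N * σ * K ^ N * nm g := mul_nonneg (by positivity) (nm_nonneg _)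
  have h6 : nm hh ≤ N * σ * K ^ N * nm g := by
    rcases (nm_nonneg hh).eq_or_lt with h | h
    · rw [← h]; exact hη
    · refine le_of_mul_le_mul_right ?_ h
      nlinarith
  change 𝔼 y, hh y ^ 2 ≤ _
  rw [← nm_sq, ← nm_sq, ← mul_pow]
  exact pow_le_pow_left₀ (nm_nonneg _) h6 2

/-- maximal correlation of one site with the others under a product of edge kernels -/
lemma maxcorr_PE (h0 : ∀ t, 0 ≤ k0 t) (hK : ∀ t, k0 t ≤ K) (hK1 : 1 ≤ K) (hop : OpSmall k0 σ)
    (hσ : 0 ≤ σ) (E : Finset (X × X)) (h1 : ∀ e ∈ E, e.1 ≠ e.2) (h2 : ∀ e ∈ E, e.swap ∉ E)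
    (w : X) (g : V → ℝ) (G : (X → V) → ℝ) (hg : ∑ s, g s = 0) (hG : Ind w G) :
    (𝔼 y : X → V, g (y w) * G y * PE k0 E y) ^ 2 ≤
      6 * (K ^ E.card) ^ 2 * (E.card * σ * K ^ E.card) ^ 2 * (𝔼 s, g s ^ 2) *
        𝔼 y : X → V, G y ^ 2 * PE k0 E y := by
  set Ew := E.filter fun e => ¬ (e.1 ≠ w ∧ e.2 ≠ w)
  set Er := E.filter fun e => e.1 ≠ w ∧ e.2 ≠ w
  have hsplit : ∀ y, PE k0 E y = PE k0 Er y * PE k0 Ew y := fun y =>
    (prod_filter_mul_prod_filter_not E _ _).symm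
  have hir : Ind w (PE k0 Er) := PE_ind fun e he => (mem_filter.1 he).2
  have hsw : Ew ⊆ E := filter_subset _ _
  have hstar := star_le h0 hK hK1 hop hσ Ew (card_le_card hsw) (fun e he => h1 e (hsw he))
    (fun e he h => h2 e (hsw he) (hsw h)) w fun e he => by
      have := (mem_filter.1 he).2
      tauto
  set M := K ^ E.card with hM
  set η := E.card * σ * M
  have hM1 : 1 ≤ M := one_le_pow₀ hK1
  have hPw : ∀ y, PE k0 Ew y ≤ M := fun y =>
    (PE_le h0 hK _ y).trans (pow_le_pow_right₀ hK1 (card_le_card hsw))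
  have hPr : ∀ y, PE k0 Er y ≤ M := fun y =>
    (PE_le h0 hK _ y).trans (pow_le_pow_right₀ hK1 (card_le_card (filter_subset _ _)))
  set h : (X → V) → ℝ := fun y => 𝔼 s, g s * PE k0 Ew (Function.update y w s) with hh
  set n : (X → V) → ℝ := fun y => 𝔼 s, PE k0 Ew (Function.update y w s) with hn
  set γ := 𝔼 s, g s ^ 2 with hγ
  have hγ0 : 0 ≤ γ := expect_sq_nonneg g
  have hmean : 𝔼 s, g s = 0 := by rw [Fintype.expect_eq_sum_div_card, hg, zero_div]
  have hh2 : 𝔼 y, h y ^ 2 ≤ η ^ 2 * γ := by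
    refine le_trans (le_of_eq (expect_congr rfl fun y _ => ?_)) (hstar g)
    simp only [hh, mul_sub, expect_sub_distrib, mul_one, hmean, sub_zero]
  have hn2 : 𝔼 y, (n y - 1) ^ 2 ≤ η ^ 2 := by
    have := hstar fun _ => 1
    simp only [one_mul, one_pow, Fintype.expect_const, mul_one, expect_sub_distrib] at this
    exact this
  have hn0 : ∀ y, 0 ≤ n y := fun y => expect_nonneg fun s _ => PE_nonneg h0 _ _
  have hcs : ∀ y, h y ^ 2 ≤ n y * (M * γ) := fun y => by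
    have h3 := expect_sq_le_of_sq_le_mul (r := fun s => g s * PE k0 Ew (Function.update y w s))
      (f := fun s => PE k0 Ew (Function.update y w s))
      (g := fun s => g s ^ 2 * PE k0 Ew (Function.update y w s)) (fun s => PE_nonneg h0 _ _)
      (fun s => mul_nonneg (sq_nonneg _) (PE_nonneg h0 _ _)) fun s => le_of_eq (by ring)
    refine h3.trans (mul_le_mul_of_nonneg_left ?_ (hn0 y))
    rw [hγ, mul_expect]
    exact expect_le_expect fun s _ => by
      rw [mul_comm M]; exact mul_le_mul_of_nonneg_left (hPw _) (sq_nonneg _)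
  set q : (X → V) → ℝ := fun y => 2 * h y ^ 2 + 4 * (n y - 1) ^ 2 * (M * γ) with hq
  have hMγ : 0 ≤ M * γ := by positivity
  have hq0 : ∀ y, 0 ≤ q y := fun y => by simp only [hq]; positivity
  have hnq : ∀ y, h y ^ 2 ≤ n y * q y := fun y => by
    simp only [hq]
    by_cases hy : 1 / 2 ≤ n y
    · have : 0 ≤ n y * (4 * (n y - 1) ^ 2 * (M * γ)) := mul_nonneg (hn0 y) (by positivity)
      nlinarith [sq_nonneg (h y)]
    · have h4 : 1 ≤ 4 * (n y - 1) ^ 2 := by nlinarith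
      have h5 : M * γ ≤ 2 * h y ^ 2 + 4 * (n y - 1) ^ 2 * (M * γ) := by nlinarith [sq_nonneg (h y)]
      exact (hcs y).trans (mul_le_mul_of_nonneg_left h5 (hn0 y))
  have e1 : 𝔼 y : X → V, g (y w) * G y * PE k0 E y = 𝔼 y, G y * PE k0 Er y * h y := by
    rw [expect_update w]
    refine expect_congr rfl fun y _ => ?_
    simp only [hh, mul_expect, Function.update_self, hG y, hsplit, hir y]
    exact expect_congr rfl fun s _ => by ring
  have e2 : 𝔼 y : X → V, G y ^ 2 * PE k0 E y = 𝔼 y, G y ^ 2 * PE k0 Er y * n y := by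
    rw [expect_update w]
    refine expect_congr rfl fun y _ => ?_
    simp only [hn, mul_expect, hG y, hsplit, hir y]
    exact expect_congr rfl fun s _ => by ring
  have h6 := expect_sq_le_of_sq_le_mul (r := fun y => G y * PE k0 Er y * h y)
    (f := fun y => G y ^ 2 * PE k0 Er y * n y) (g := fun y => PE k0 Er y * q y)
    (fun y => mul_nonneg (mul_nonneg (sq_nonneg _) (PE_nonneg h0 _ _)) (hn0 y))
    (fun y => mul_nonneg (PE_nonneg h0 _ _) (hq0 y)) fun y => by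
      have := mul_le_mul_of_nonneg_left (hnq y) (sq_nonneg (G y * PE k0 Er y))
      nlinarith
  have h7 : 𝔼 y, PE k0 Er y * q y ≤ 6 * M ^ 2 * η ^ 2 * γ := by
    calc 𝔼 y, PE k0 Er y * q y ≤ 𝔼 y, M * q y :=
          expect_le_expect fun y _ => mul_le_mul_of_nonneg_right (hPr y) (hq0 y)
      _ = M * (2 * (𝔼 y, h y ^ 2) + 4 * (𝔼 y, (n y - 1) ^ 2) * (M * γ)) := by
          simp only [hq, ← mul_expect, expect_add_distrib, ← expect_mul]
      _ ≤ M * (2 * (η ^ 2 * γ) + 4 * η ^ 2 * (M * γ)) := by gcongr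
      _ ≤ 6 * M ^ 2 * η ^ 2 * γ := by
          have : 0 ≤ η ^ 2 * γ := by positivity
          nlinarith [mul_le_mul_of_nonneg_right hM1 (mul_nonneg (zero_le_one.trans hM1) this)]
  rw [e1, e2]
  refine h6.trans ?_
  rw [mul_comm]
  exact mul_le_mul_of_nonneg_right h7 (expect_nonneg fun y _ =>
    mul_nonneg (mul_nonneg (sq_nonneg _) (PE_nonneg h0 _ _)) (hn0 y))

end

end Crest.Agent.N41.Local
end

-- ▼ part N41/Local/Main
section

/-!
# Row 41, module A: the local law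
-/

set_option autoImplicit false
open Finset
open scoped BigOperators

namespace Crest.Agent.N41.Local

section weights
variable {D : ℕ} {ε l : ℝ}

/-- the weight of a tuple of hexagon maps -/
noncomputable def WW (ε l : ℝ) (Φ : Fin D → H → H) : ℝ := ∏ i, wt ε l (Φ i)

lemma WW_nonneg (hε : 0 ≤ ε) (hl : 1 ≤ l) (Φ : Fin D → H → H) : 0 ≤ WW ε l Φ :=
  prod_nonneg fun _ _ => wt_nonneg hε hl _

lemma WW_id : WW ε l (fun (_ : Fin D) => (id : H → H)) = 1 := by simp [WW, wt_id]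

lemma sum_dir_nonneg (hε : 0 ≤ ε) (hl : 1 ≤ l) (i : Fin D) (M : (Fin D → H → H) → ℝ)
    (h : ∀ Φ, 0 ≤ ∑ ψ, wt ε l ψ * M (Function.update Φ i ψ)) : 0 ≤ ∑ Φ, WW ε l Φ * M Φ := by
  have h1 : 0 ≤ 𝔼 Φ, WW ε l Φ * M Φ := by
    rw [expect_update i]
    refine expect_nonneg fun Φ _ => ?_
    rw [Fintype.expect_eq_sum_div_card]
    refine div_nonneg ?_ (Nat.cast_nonneg _)
    have h2 : ∀ ψ, WW ε l (Function.update Φ i ψ) =
        (∏ m ∈ univ.erase i, wt ε l (Φ m)) * wt ε l ψ := fun ψ => by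
      unfold WW
      rw [← mul_prod_erase univ _ (mem_univ i), Function.update_self, mul_comm]
      congr 1
      exact prod_congr rfl fun m hm => by rw [Function.update_of_ne (ne_of_mem_erase hm)]
    simp only [h2, mul_assoc, ← mul_sum]
    exact mul_nonneg (prod_nonneg fun _ _ => wt_nonneg hε hl _) (h Φ)
  rw [Fintype.expect_eq_sum_div_card] at h1
  have hc : (0 : ℝ) < Fintype.card (Fin D → H → H) := by exact_mod_cast Fintype.card_pos
  exact (div_nonneg_iff.1 h1).elim (fun h => h.1) fun h => absurd h.2 (not_le.2 hc)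

lemma sum_dir_eq (hε : 0 ≤ ε) (hl : 1 ≤ l) (i : Fin D) (M M' : (Fin D → H → H) → ℝ)
    (h : ∀ Φ, ∑ ψ, wt ε l ψ * M (Function.update Φ i ψ) =
      ∑ ψ, wt ε l ψ * M' (Function.update Φ i ψ)) :
    ∑ Φ, WW ε l Φ * M Φ = ∑ Φ, WW ε l Φ * M' Φ := by
  have h1 := sum_dir_nonneg hε hl i (fun Φ => M Φ - M' Φ) fun Φ => by
    simp only [mul_sub, sum_sub_distrib, h Φ, sub_self, le_refl]
  have h2 := sum_dir_nonneg hε hl i (fun Φ => M' Φ - M Φ) fun Φ => by
    simp only [mul_sub, sum_sub_distrib, h Φ, sub_self, le_refl]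
  simp only [mul_sub, sum_sub_distrib] at h1 h2
  linarith

lemma sum_WW : ∑ Φ : Fin D → H → H, WW ε l Φ = (1 + ∑ ψ, wa ε l ψ) ^ D := by
  unfold WW
  rw [← Fintype.prod_sum fun (_ : Fin D) ψ => wt ε l ψ, prod_const, card_univ, Fintype.card_fin]
  congr 1
  simpa using sum_wt_mul (ε := ε) (l := l) fun _ => 1

lemma sum_WW_fail :
    ∑ Φ ∈ univ.filter fun Φ : Fin D → H → H => ¬ ∃ i, Φ i = id, WW ε l Φ =
      (∑ ψ, wa ε l ψ) ^ D := by
  have h1 : (∑ ψ, wa ε l ψ) ^ D = ∑ Φ : Fin D → H → H, ∏ i, wa ε l (Φ i) := by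
    rw [← Fintype.prod_sum fun (_ : Fin D) ψ => wa ε l ψ, prod_const, card_univ, Fintype.card_fin]
  rw [h1, sum_filter]
  refine sum_congr rfl fun Φ _ => ?_
  split_ifs with h
  · obtain ⟨i, hi⟩ := h
    exact (prod_eq_zero (mem_univ i) (by rw [hi, wa_id])).symm
  · exact prod_congr rfl fun i _ => wt_of_ne fun hi => h ⟨i, hi⟩

lemma one_add_pow_sub_one_le {s : ℝ} (h0 : 0 ≤ s) (h1 : s ≤ 1) (D : ℕ) :
    (1 + s) ^ D - 1 ≤ (2 ^ D - 1) * s := by
  induction D with
  | zero => simp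
  | succ D ih =>
    have h2 : (1 : ℝ) ≤ 2 ^ D := one_le_pow₀ (by norm_num)
    have h3 : (1 + s) ^ D ≤ 2 ^ D := pow_le_pow_left₀ (by linarith) (by linarith) D
    rw [pow_succ, pow_succ]
    nlinarith

end weights

section mix
variable {D : ℕ} {V : Type} [Fintype V] [AddCommGroup V] {k0 : V → ℝ} {K σ ε l : ℝ}

/-- the mixture of the measures `mu` over a set of tuples -/
noncomputable def mix (k0 : V → ℝ) (ε l : ℝ) (S : Finset (Fin D → H → H))
    (F : (Om D → V) → ℝ) : ℝ := ∑ Φ ∈ S, WW ε l Φ * mu k0 (act Φ) F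

open Classical in
/-- the mass function of the mixture -/
noncomputable def wgt (k0 : V → ℝ) (ε l : ℝ) (S : Finset (Fin D → H → H)) (x : Om D → V) : ℝ :=
  mix k0 ε l S fun z => if z = x then 1 else 0

lemma sum_wgt (S : Finset (Fin D → H → H)) (F : (Om D → V) → ℝ) :
    ∑ x, wgt k0 ε l S x * F x = mix k0 ε l S F := by
  classical
  unfold wgt mix mu
  simp only [sum_mul]
  rw [sum_comm]
  refine sum_congr rfl fun Φ _ => ?_
  simp only [mul_assoc, ← mul_sum, expect_mul]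
  rw [← expect_sum_comm]
  congr 1
  refine expect_congr rfl fun y _ => ?_
  simp [mul_comm]

lemma mix_nonneg (h0 : ∀ t, 0 ≤ k0 t) (hε : 0 ≤ ε) (hl : 1 ≤ l) (S : Finset (Fin D → H → H))
    {F : (Om D → V) → ℝ} (hF : ∀ x, 0 ≤ F x) : 0 ≤ mix k0 ε l S F :=
  sum_nonneg fun Φ _ => mul_nonneg (WW_nonneg hε hl Φ) (mu_nonneg h0 _ hF)

lemma wgt_nonneg (h0 : ∀ t, 0 ≤ k0 t) (hε : 0 ≤ ε) (hl : 1 ≤ l) (S : Finset (Fin D → H → H))
    (x : Om D → V) : 0 ≤ wgt k0 ε l S x :=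
  mix_nonneg h0 hε hl S fun z => by split_ifs <;> norm_num

lemma wgt_shift (S : Finset (Fin D → H → H)) (x : Om D → V) (t : V) :
    wgt k0 ε l S (fun c => x c + t) = wgt k0 ε l S x := by
  classical
  unfold wgt mix
  refine sum_congr rfl fun Φ _ => ?_
  rw [← mu_shift _ _ t]
  congr 2
  funext z
  congr 1
  exact propext ⟨fun h => funext fun c => add_right_cancel (congrFun h c), fun h => by rw [h]⟩

lemma wgt_mir (hε : 0 ≤ ε) (hl : 1 ≤ l) (i : Fin D) (j : H) (x : Om D → V) :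
    wgt k0 ε l univ (x ∘ dir i (mir j)) = wgt k0 ε l univ x := by
  classical
  unfold wgt mix
  refine sum_dir_eq hε hl i _ _ fun Φ => ?_
  rw [← sum_mu_mir ε l Φ i j]
  refine sum_congr rfl fun ψ _ => ?_
  congr 2
  funext z
  congr 1
  refine propext ⟨fun h => funext fun c => ?_, fun h => by rw [h]⟩
  simpa [dir_mir_mir] using congrFun h (dir i (mir j) c)

lemma mix_one_le (h0 : ∀ t, 0 ≤ k0 t) (hK : ∀ t, k0 t ≤ K) (hK1 : 1 ≤ K) (hε : 0 ≤ ε)
    (hl : 1 ≤ l) (S : Finset (Fin D → H → H)) (w : Om D) (g : V → ℝ) (hg : ∀ s, 0 ≤ g s) :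
    mix k0 ε l S (fun x => g (x w)) ≤ (∑ Φ ∈ S, WW ε l Φ) * (K ^ (Gam D).card * 𝔼 s, g s) := by
  rw [sum_mul]
  refine sum_le_sum fun Φ _ => mul_le_mul_of_nonneg_left ?_ (WW_nonneg hε hl Φ)
  rw [← expect_coord (act Φ w) g, mul_expect]
  refine expect_le_expect fun y _ => ?_
  rw [mul_comm]
  exact mul_le_mul_of_nonneg_right (PE_edgesOf_le h0 hK hK1 _ y) (hg _)

lemma mix_pair_le (h0 : ∀ t, 0 ≤ k0 t) (hK : ∀ t, k0 t ≤ K) (hK1 : 1 ≤ K) (hε : 0 ≤ ε)
    (hl : 1 ≤ l) (F : V → V → ℝ) (hF : ∀ s t, 0 ≤ F s t) :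
    mix k0 ε l (univ.filter fun Φ : Fin D → H → H => ∃ i, Φ i = id)
      (fun x => F (x (ptA D)) (x (ptB D))) ≤
      (∑ Φ : Fin D → H → H, WW ε l Φ) * (K ^ (Gam D).card * 𝔼 s, 𝔼 t, k0 (t - s) * F s t) := by
  have hE : 0 ≤ K ^ (Gam D).card * 𝔼 s, 𝔼 t, k0 (t - s) * F s t :=
    mul_nonneg (by positivity) (expect_nonneg fun s _ => expect_nonneg fun t _ =>
      mul_nonneg (h0 _) (hF s t))
  refine le_trans ?_ (mul_le_mul_of_nonneg_right (sum_le_sum_of_subset_of_nonneg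
    (filter_subset (fun Φ : Fin D → H → H => ∃ i, Φ i = id) univ)
    fun Φ _ _ => WW_nonneg hε hl Φ) hE)
  rw [sum_mul]
  refine sum_le_sum fun Φ hΦ => ?_
  by_cases hW : WW ε l Φ = 0
  · simp [hW]
  refine mul_le_mul_of_nonneg_left ?_ (WW_nonneg hε hl Φ)
  obtain ⟨i, hi⟩ := (mem_filter.1 hΦ).2
  have hG : (act Φ (ptA D), act Φ (ptB D)) ∈ Gam D := by
    refine mem_Gam.2 ⟨fun m => ?_, i, ?_⟩
    · exact rel_of_wt_ne (prod_ne_zero_iff.1 hW m (mem_univ m)) _ _ Rel_zero_two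
    · simp only [act, hi]; exact rho_zero_two
  have hsub : {(act Φ (ptA D), act Φ (ptB D))} ⊆ edgesOf (act Φ) :=
    singleton_subset_iff.2 (mem_edgesOf.2 ⟨hG, ⟨_, rfl⟩, _, rfl⟩)
  rw [← expect_two_coord (Gam_ne hG) fun s t => k0 (t - s) * F s t, mul_expect]
  refine expect_le_expect fun y _ => ?_
  have h1 := PE_le_of_subset h0 hK hK1 hsub (card_le_card (edgesOf_subset _)) y
  have h2 := mul_le_mul_of_nonneg_left h1 (hF (y (act Φ (ptA D))) (y (act Φ (ptB D))))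
  refine h2.trans (le_of_eq ?_)
  simp only [PE, prod_singleton]
  ring

lemma mix_univ_eq (F : (Om D → V) → ℝ) : mix k0 ε l univ F =
    (𝔼 y, F y * PE k0 (Gam D) y) + mix k0 ε l (univ.erase fun _ => id) F := by
  unfold mix
  rw [← add_sum_erase univ _ (mem_univ fun _ => id), WW_id, one_mul, act_id, mu, edgesOf_id]
  rfl

lemma mix_maxcorr (h0 : ∀ t, 0 ≤ k0 t) (hK : ∀ t, k0 t ≤ K) (hK1 : 1 ≤ K) (hop : OpSmall k0 σ)
    (hσ : 0 ≤ σ) (hε : 0 ≤ ε) (hl : 1 ≤ l) {R : ℝ}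
    (hR1 : 6 * (K ^ (Gam D).card) ^ 2 * ((Gam D).card * σ * K ^ (Gam D).card) ^ 2 ≤ R)
    (hR2 : ((∑ Φ : Fin D → H → H, WW ε l Φ) - 1) * K ^ (Gam D).card ≤ R)
    (w : Om D) (g : V → ℝ) (G : (Om D → V) → ℝ) (hg : ∑ s, g s = 0) (hG : Ind w G) :
    mix k0 ε l univ (fun x => g (x w) * G x) ^ 2 ≤
      2 * R * (𝔼 s, g s ^ 2) * mix k0 ε l univ fun x => G x ^ 2 := by
  rw [mix_univ_eq, mix_univ_eq]
  have h1 := maxcorr_PE h0 hK hK1 hop hσ (Gam D) (fun e he => Gam_ne he) (fun e he => Gam_swap he)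
    w g G hg hG
  set S : Finset (Fin D → H → H) := univ.erase fun _ => id
  have h2 : mix k0 ε l S (fun x => g (x w) * G x) ^ 2 ≤
      mix k0 ε l S (fun x => g (x w) ^ 2) * mix k0 ε l S fun x => G x ^ 2 := by
    rw [← sum_wgt, ← sum_wgt, ← sum_wgt]
    exact sum_sq_le_sum_mul_sum_of_sq_le_mul univ
      (fun x _ => mul_nonneg (wgt_nonneg h0 hε hl S x) (sq_nonneg _))
      (fun x _ => mul_nonneg (wgt_nonneg h0 hε hl S x) (sq_nonneg _)) fun x _ => le_of_eq (by ring)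
  have h3 := mix_one_le h0 hK hK1 hε hl S w (fun s => g s ^ 2) fun s => sq_nonneg _
  have h4 : ∑ Φ ∈ S, WW ε l Φ = (∑ Φ : Fin D → H → H, WW ε l Φ) - 1 := by
    rw [← add_sum_erase univ _ (mem_univ fun _ => id), WW_id]; ring
  have hγ := expect_sq_nonneg g
  have hA : 0 ≤ 𝔼 y, G y ^ 2 * PE k0 (Gam D) y :=
    expect_nonneg fun y _ => mul_nonneg (sq_nonneg _) (PE_nonneg h0 _ _)
  have hB : 0 ≤ mix k0 ε l S fun x => G x ^ 2 := mix_nonneg h0 hε hl S fun x => sq_nonneg _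
  rw [h4, ← mul_assoc] at h3
  have h5 := h1.trans (mul_le_mul_of_nonneg_right (mul_le_mul_of_nonneg_right hR1 hγ) hA)
  have h6 := h2.trans (mul_le_mul_of_nonneg_right
    (h3.trans (mul_le_mul_of_nonneg_right hR2 hγ)) hB)
  nlinarith [sq_nonneg ((𝔼 y, g (y w) * G y * PE k0 (Gam D) y) -
    mix k0 ε l S fun x => g (x w) * G x)]

lemma half_le_mix (h0 : ∀ t, 0 ≤ k0 t) (hK : ∀ t, k0 t ≤ K) (hK1 : 1 ≤ K) (hop : OpSmall k0 σ)
    (hσ : 0 ≤ σ) (hε : 0 ≤ ε) (hl : 1 ≤ l)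
    (hη : (Gam D).card * σ * K ^ (Gam D).card ≤ 1 / 2) :
    1 / 2 ≤ mix k0 ε l (univ : Finset (Fin D → H → H)) fun _ => 1 := by
  rw [mix_univ_eq]
  have h1 := edges_le h0 hK hK1 hop hσ (a := fun _ => 1) (b := fun _ => 1) (Gam D) le_rfl
    (fun e he => Gam_ne he) (fun e he => Gam_swap he)
    fun e _ => Or.inl ⟨fun _ _ => rfl, fun _ _ => rfl⟩
  have h2 : nm (fun _ : Om D → V => (1 : ℝ)) = 1 := by simp [nm]
  simp only [h2, mul_one, one_mul, expect_sub_distrib, Fintype.expect_const] at h1 ⊢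
  have h3 := mix_nonneg h0 hε hl (univ.erase fun (_ : Fin D) => id) (F := fun _ => 1)
    fun _ => zero_le_one
  linarith [(abs_le.1 h1).1]

end mix

/-- **Module A**: the local law. -/
theorem localLaw : LocalLawStmt := by
  intro D K₀
  set K := max K₀ 1
  have hK1 : 1 ≤ K := le_max_right _ _
  set N := (Gam D).card
  set M := K ^ N with hM
  have hM1 : 1 ≤ M := one_le_pow₀ hK1
  set l := 6 ^ 6 * M with hl
  have hl1 : 1 ≤ l := by rw [hl]; nlinarith
  set c0 := N * M with hc0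
  set c1 := 6 ^ 6 * (6 ^ 6 * (c0 * M) * l ^ 60) with hc1
  have hc00 : 0 ≤ c0 := by positivity
  have hc10 : 0 ≤ c1 := by positivity
  set R := 6 * M ^ 2 * c0 ^ 2 + 2 ^ D * c1 * M with hR
  have hR0 : 0 ≤ R := by positivity
  have hCa : 0 ≤ 2 * (2 ^ D * M) := by positivity
  have hCb : 0 ≤ 2 * (c1 ^ D * M) := by positivity
  refine ⟨1 + 2 * (2 ^ D * M) + 2 * (c1 ^ D * M) + 4 * R, 1 / (1 + 2 * c0 + c1), by linarith,
    by positivity, ?_⟩
  intro V _ _ k0 σ h0 hK₀ hop hσ hσ0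
  set C := 1 + 2 * (2 ^ D * M) + 2 * (c1 ^ D * M) + 4 * R with hC
  have hK : ∀ t, k0 t ≤ K := fun t => (hK₀ t).trans (le_max_left _ _)
  rw [le_div_iff₀ (by positivity)] at hσ0
  have hσ1 : σ ≤ 1 := by nlinarith
  have hσ2 : c0 * σ ≤ 1 / 2 := by nlinarith
  have hσ3 : c1 * σ ≤ 1 := by nlinarith
  set ε := 6 ^ 6 * (N * σ * M * M) with hε
  have hε0 : 0 ≤ ε := by positivity
  set s := ∑ ψ, wa ε l ψ with hs
  have hs0 : 0 ≤ s := sum_nonneg fun ψ _ => wa_nonneg hε0 hl1 ψ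
  have hs1 : s ≤ c1 * σ := (sum_wa_le hε0 hl1).trans (le_of_eq (by rw [hε, hc1, hc0]; ring))
  have hW : ∑ Φ : Fin D → H → H, WW ε l Φ ≤ 2 ^ D := by
    rw [sum_WW]; exact pow_le_pow_left₀ (by linarith) (by linarith) D
  set Z := mix k0 ε l (univ : Finset (Fin D → H → H)) fun _ => 1 with hZ
  have hZ1 : 1 / 2 ≤ Z := half_le_mix h0 hK hK1 hop hσ hε0 hl1 (by
    refine le_trans (le_of_eq ?_) hσ2
    rw [hc0]; ring)
  have hZ0 : 0 < Z := by linarith
  set S1 : Finset (Fin D → H → H) := univ.filter fun Φ => ∃ i, Φ i = id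
  set S2 : Finset (Fin D → H → H) := univ.filter fun Φ => ¬ ∃ i, Φ i = id
  have hadd : ∀ x, wgt k0 ε l S1 x / Z + wgt k0 ε l S2 x / Z = wgt k0 ε l univ x / Z := by
    intro x
    rw [← add_div]
    congr 1
    exact sum_filter_add_sum_filter_not _ _ _
  have hint : ∀ (S : Finset (Fin D → H → H)) (F : (Om D → V) → ℝ),
      ∑ x, wgt k0 ε l S x / Z * F x = mix k0 ε l S F / Z := fun S F => by
    rw [← sum_wgt, sum_div]
    exact sum_congr rfl fun x _ => by ring
  have hdiv : ∀ {a b : ℝ}, 0 ≤ b → a ≤ b → a / Z ≤ 2 * b := fun {a b} hb hab => by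
    rw [div_le_iff₀ hZ0]; nlinarith
  refine ⟨⟨fun x => wgt k0 ε l S1 x / Z, fun x => wgt k0 ε l S2 x / Z,
    fun x => div_nonneg (wgt_nonneg h0 hε0 hl1 _ x) hZ0.le,
    fun x => div_nonneg (wgt_nonneg h0 hε0 hl1 _ x) hZ0.le, ?_, ?_,
    fun x t => by rw [wgt_shift], fun x t => by rw [wgt_shift], ?_, ?_, ?_⟩⟩
  · have := hint univ fun _ => 1
    simp only [mul_one] at this
    simp only [hadd, this]
    exact div_self hZ0.ne'
  · intro i j
    simp only [hadd]
    refine ⟨fun x => by rw [wgt_mir hε0 hl1], fun F => ?_⟩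
    rw [hint]
    exact div_nonneg (sum_dir_nonneg hε0 hl1 i _ fun Φ =>
      sum_BB_nonneg h0 hK hK1 hop hσ hl hε Φ i j F) hZ0.le
  · have h1 := hint S2 fun _ => 1
    simp only [mul_one] at h1
    have h2 := mix_one_le h0 hK hK1 hε0 hl1 S2 (ptA D) (fun _ => 1) fun _ => zero_le_one
    rw [sum_WW_fail, Fintype.expect_const, mul_one] at h2
    have h3 : s ^ D * M ≤ c1 ^ D * M * σ ^ D := by
      have := pow_le_pow_left₀ hs0 hs1 D
      rw [mul_pow] at this
      nlinarith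
    rw [h1]
    refine (hdiv (by positivity) (h2.trans h3)).trans ?_
    have : 0 ≤ σ ^ D := by positivity
    nlinarith
  · intro F hF
    rw [hint]
    have hE : 0 ≤ 𝔼 s, 𝔼 t, k0 (t - s) * F s t :=
      expect_nonneg fun s _ => expect_nonneg fun t _ => mul_nonneg (h0 _) (hF s t)
    have h1 := (mix_pair_le h0 hK hK1 hε0 hl1 F hF).trans
      (mul_le_mul_of_nonneg_right hW (mul_nonneg (zero_le_one.trans hM1) hE))
    refine (hdiv (by positivity) h1).trans ?_
    nlinarith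
  · intro w g G hg hG
    simp only [hadd, hint]
    have hs2 := one_add_pow_sub_one_le hs0 (hs1.trans hσ3) D
    have h1 := mix_maxcorr (R := R * σ) h0 hK hK1 hop hσ hε0 hl1 (by
      have e : (N * σ * M) ^ 2 = c0 ^ 2 * σ * σ := by rw [hc0]; ring
      have h2 : 0 ≤ 6 * M ^ 2 * (c0 ^ 2 * σ) := by positivity
      have h3 : 0 ≤ 2 ^ D * c1 * M * σ := by positivity
      change 6 * M ^ 2 * (N * σ * M) ^ 2 ≤ _
      rw [e, hR]
      nlinarith) (by
      rw [sum_WW]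
      have h2 : 0 ≤ 6 * M ^ 2 * c0 ^ 2 * σ := by positivity
      have h3 : (1 + s) ^ D - 1 ≤ 2 ^ D * (c1 * σ) := by
        have : (0 : ℝ) ≤ 2 ^ D := by positivity
        nlinarith
      change ((1 + s) ^ D - 1) * M ≤ _
      rw [hR]
      nlinarith) w g G hg hG
    have hγ := expect_sq_nonneg g
    have hB : 0 ≤ mix k0 ε l univ fun x => G x ^ 2 :=
      mix_nonneg h0 hε0 hl1 _ fun x => sq_nonneg _
    rw [mul_pow, Real.sq_sqrt hσ, div_pow, sq Z, ← div_div, ← mul_div_assoc]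
    refine div_le_div_of_nonneg_right ((hdiv (by positivity) h1).trans ?_) hZ0.le
    have hC1 : 1 ≤ C := by linarith
    have hC2 : 4 * R ≤ C ^ 2 := by nlinarith
    have h4 : 0 ≤ σ * (𝔼 s, g s ^ 2) * mix k0 ε l univ fun x => G x ^ 2 := by positivity
    nlinarith

end Crest.Agent.N41.Local
end

-- ▼ part N41/Local/Wrap
section

/-!
# Row 41, modules A and A': `LocalStmt` and `TransportStmt`
-/

set_option autoImplicit false
open Finset
open scoped BigOperators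

namespace Crest.Agent.N41.Local

section
variable {D : ℕ} {V : Type} [Fintype V] [AddCommGroup V]

lemma opSmall_of_opBd {k0 : V → ℝ} {σ : ℝ} (hm : 𝔼 t, k0 t = 1) (h : OpBd k0 σ) :
    OpSmall k0 σ := by
  intro u v
  set a := 𝔼 s, u s with ha
  have hc : (0 : ℝ) < Fintype.card V := by exact_mod_cast Fintype.card_pos
  have h1 : ∑ s, (u s - a) = 0 := by
    rw [sum_sub_distrib, sum_const, card_univ, nsmul_eq_mul, ha, Fintype.card_mul_expect, sub_self]
  have h2 := h (fun s => u s - a) v h1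
  have h3 : ∀ t, 𝔼 s, k0 (t - s) = 1 := fun t => by
    rw [← hm]; exact Fintype.expect_equiv (Equiv.subLeft t) _ _ fun _ => rfl
  have h4 : 𝔼 s, 𝔼 t, u s * v t * (k0 (t - s) - 1) = 𝔼 s, 𝔼 t, (u s - a) * v t * k0 (t - s) := by
    rw [expect_comm, expect_comm univ univ fun s t => (u s - a) * v t * k0 (t - s)]
    refine expect_congr rfl fun t _ => ?_
    have e1 : ∀ s, u s * v t * (k0 (t - s) - 1) = u s * v t * k0 (t - s) - v t * u s :=
      fun s => by ring
    have e2 : ∀ s, (u s - a) * v t * k0 (t - s) = u s * v t * k0 (t - s) - a * v t * k0 (t - s) :=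
      fun s => by ring
    simp only [e1, e2, expect_sub_distrib, ← mul_expect, h3, ← ha]
    ring
  have h5 : 𝔼 s, (u s - a) ^ 2 ≤ 𝔼 s, u s ^ 2 := by
    have e : ∀ s, (u s - a) ^ 2 = u s ^ 2 - 2 * a * u s + a ^ 2 := fun s => by ring
    simp only [e, expect_add_distrib, expect_sub_distrib, ← mul_expect, ← ha, Fintype.expect_const]
    nlinarith [sq_nonneg a]
  rw [h4]
  refine h2.trans (mul_le_mul_of_nonneg_right (mul_le_mul_of_nonneg_left h5 (sq_nonneg _)) ?_)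
  exact expect_sq_nonneg v

open Classical in
/-- the density of the law of `x b - x a` -/
noncomputable def pairKer (n : (Om D → V) → ℝ) (t : V) : ℝ :=
  ∑ x, n x * if x (ptB D) - x (ptA D) = t then (Fintype.card V : ℝ) else 0

lemma pairKer_nonneg {n : (Om D → V) → ℝ} (h0 : ∀ x, 0 ≤ n x) (t : V) : 0 ≤ pairKer n t :=
  sum_nonneg fun x _ => mul_nonneg (h0 x) (by split_ifs <;> positivity)

lemma pair_eq {n : (Om D → V) → ℝ} (ht : ∀ (x : Om D → V) (t : V), n (fun c => x c + t) = n x)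
    (F : V → V → ℝ) :
    ∑ x, n x * F (x (ptA D)) (x (ptB D)) = 𝔼 s, 𝔼 t, F s t * pairKer n (t - s) := by
  classical
  have h1 : ∑ x, n x * F (x (ptA D)) (x (ptB D)) =
      𝔼 c : V, ∑ x, n x * F (x (ptA D) + c) (x (ptB D) + c) := by
    rw [expect_congr rfl fun c _ => sum_shift ht (fun x => F (x (ptA D)) (x (ptB D))) c,
      Fintype.expect_const]
  rw [h1, expect_sum_comm]
  unfold pairKer
  simp only [mul_sum, expect_sum_comm]
  refine sum_congr rfl fun x _ => ?_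
  refine Fintype.expect_equiv (Equiv.addLeft (x (ptA D))) _ _ fun c => ?_
  rw [← expect_boole_mul (fun t => n x * F (x (ptA D) + c) t) (x (ptB D) + c)]
  refine expect_congr rfl fun t _ => ?_
  have : (x (ptB D) - x (ptA D) = t - (x (ptA D) + c)) ↔ x (ptB D) + c = t := by
    constructor
    · intro h; rw [sub_eq_iff_eq_add] at h; rw [h]; abel
    · rintro rfl; abel
  simp only [Equiv.coe_addLeft, this]
  ring

lemma expect_diff (κ : V → ℝ) : 𝔼 s, 𝔼 t, κ (t - s) = 𝔼 t, κ t := by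
  rw [expect_congr rfl fun s _ =>
    Fintype.expect_equiv (Equiv.subRight s) (fun t => κ (t - s)) κ fun _ => rfl,
    Fintype.expect_const]

lemma ptA_ne_ptB (hD : 1 ≤ D) : ptA D ≠ ptB D := fun h => by
  have := congrFun h ⟨0, hD⟩
  simp [ptA, ptB] at this

end

/-- **Module A**. -/
theorem localStmt : LocalStmt := by
  classical
  intro D K hD _
  obtain ⟨C, σ0, hC, hσ0, H⟩ := localLaw D K
  refine ⟨4 * C, min σ0 (1 / (2 * C)), by linarith, lt_min hσ0 (by positivity), ?_⟩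
  intro V _ _ k0 σ h0 hK hm hop hσ hle
  obtain ⟨L⟩ := H V k0 σ h0 hK (opSmall_of_opBd hm hop) hσ (hle.trans (min_le_left _ _))
  have hσ1 : σ * (2 * C) ≤ 1 := (le_div_iff₀ (by positivity)).1 (hle.trans (min_le_right _ _))
  have hσ2 : σ ≤ 1 := by nlinarith
  have hσD : σ ^ D ≤ σ := pow_le_of_le_one hσ hσ2 (by omega)
  have hσD0 : 0 ≤ σ ^ D := by positivity
  set β := ∑ x, L.fail x with hβ
  have hβ0 : 0 ≤ β := sum_nonneg fun x _ => L.fail_nonneg x
  have hβ1 : β ≤ C * σ := L.fail_mass.trans (by nlinarith)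
  set m := ∑ x, L.nf x with hmm
  have hm1 : m + β = 1 := by rw [hmm, hβ, ← sum_add_distrib]; exact L.total
  have hm2 : 1 / 2 ≤ m := by nlinarith
  have hm0 : 0 < m := by linarith
  have hshift : ∀ (x : Om D → V) (t : V),
      L.nf (fun c => x c + t) + L.fail (fun c => x c + t) = L.nf x + L.fail x := fun x t => by
    rw [L.nf_shift, L.fail_shift]
  have hsq : (4 * C * √σ) ^ 2 = 16 * (C ^ 2 * σ) := by rw [mul_pow, Real.sq_sqrt hσ]; ring
  have hsq' : (C * √σ) ^ 2 = C ^ 2 * σ := by rw [mul_pow, Real.sq_sqrt hσ]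
  have hCσ : 0 ≤ C ^ 2 * σ := by positivity
  have hker : ∀ t, pairKer L.nf t ≤ C * k0 t := fun t => by
    have h1 := L.pair (fun s s' => if t = s' - s then (Fintype.card V : ℝ) else 0)
      fun s s' => by split_ifs <;> positivity
    rw [pair_eq L.nf_shift fun s s' => if t = s' - s then (Fintype.card V : ℝ) else 0,
      expect_diff fun z => (if t = z then (Fintype.card V : ℝ) else 0) * pairKer L.nf z,
      expect_diff fun z => k0 z * if t = z then (Fintype.card V : ℝ) else 0,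
      expect_boole_mul] at h1
    simpa only [mul_comm (k0 _), expect_boole_mul] using h1
  set ψ : V → ℝ := fun t => pairKer L.nf t / m / k0 t with hψ
  have hκ : (fun t => k0 t * ψ t) = fun t => pairKer L.nf t / m := by
    funext t
    rcases (h0 t).eq_or_lt with h | h
    · have h1 := hker t
      have h2 := pairKer_nonneg L.nf_nonneg t
      rw [← h] at h1 ⊢
      rw [show pairKer L.nf t = 0 by linarith]; simp
    · simp only [hψ]; field_simp
  have hpair : ∀ u v : V → ℝ, ∑ x, L.nf x * (u (x (ptA D)) * v (x (ptB D))) =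
      m * 𝔼 s, 𝔼 t, u s * v t * (pairKer L.nf (t - s) / m) := fun u v => by
    rw [pair_eq L.nf_shift fun s t => u s * v t]
    simp only [mul_expect]
    refine expect_congr rfl fun s _ => expect_congr rfl fun t _ => ?_
    field_simp
  refine ⟨fun x => L.nf x + L.fail x, ⟨fun x => add_nonneg (L.nf_nonneg x) (L.fail_nonneg x),
    L.total, hshift, L.rp, fun w g G hg hG => (L.maxcorr w g G hg hG).trans ?_⟩, L.nf, ψ,
    ?_, fun t => ⟨div_nonneg (div_nonneg (pairKer_nonneg L.nf_nonneg t) hm0.le) (h0 t), ?_⟩⟩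
  · refine mul_le_mul_of_nonneg_right (mul_le_mul_of_nonneg_right ?_ (expect_sq_nonneg g))
      (sum_nonneg fun x _ => mul_nonneg (add_nonneg (L.nf_nonneg x) (L.fail_nonneg x))
        (sq_nonneg _))
    rw [hsq, hsq']; linarith
  · rw [hκ]
    refine ⟨L.nf_nonneg, fun x => le_add_of_nonneg_right (L.fail_nonneg x), ?_,
      ⟨m, hm0.le, by linarith, hpair⟩,
      fun t => div_nonneg (pairKer_nonneg L.nf_nonneg t) hm0.le, ?_, fun u v hu => ?_⟩
    · simp only [add_sub_cancel_left]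
      exact L.fail_mass.trans (by nlinarith)
    · have h1 := hpair (fun _ => 1) fun _ => 1
      simp only [mul_one, one_mul] at h1
      rw [expect_diff fun t => pairKer L.nf t / m, ← hmm] at h1
      exact (mul_left_cancel₀ hm0.ne' (by rw [← h1, mul_one])).symm
    · have h1 := L.maxcorr (ptA D) u (fun x => v (x (ptB D))) hu fun x s => by
        rw [Function.update_of_ne (ptA_ne_ptB hD).symm]
      rw [marginal (n := fun x => L.nf x + L.fail x) hshift (ptB D) fun t => v t ^ 2, L.total,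
        one_mul, hsq'] at h1
      have h2 : (∑ x, L.fail x * (u (x (ptA D)) * v (x (ptB D)))) ^ 2 ≤
          (∑ x, L.fail x * u (x (ptA D)) ^ 2) * ∑ x, L.fail x * v (x (ptB D)) ^ 2 :=
        sum_sq_le_sum_mul_sum_of_sq_le_mul univ
          (fun x _ => mul_nonneg (L.fail_nonneg x) (sq_nonneg _))
          (fun x _ => mul_nonneg (L.fail_nonneg x) (sq_nonneg _)) fun x _ => le_of_eq (by ring)
      rw [marginal L.fail_shift (ptA D) fun t => u t ^ 2,
        marginal L.fail_shift (ptB D) fun t => v t ^ 2, ← hβ] at h2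
      have h3 := hpair u v
      simp only [add_mul, sum_add_distrib] at h1
      rw [h3] at h1
      set X := 𝔼 s, 𝔼 t, u s * v t * (pairKer L.nf (t - s) / m)
      set Y := ∑ x, L.fail x * (u (x (ptA D)) * v (x (ptB D)))
      have hu2 := expect_sq_nonneg u
      have hv2 := expect_sq_nonneg v
      set U := 𝔼 s, u s ^ 2
      set W := 𝔼 t, v t ^ 2
      have hUW : 0 ≤ U * W := mul_nonneg hu2 hv2
      have hβ2 : β ^ 2 ≤ C ^ 2 * σ := by
        have := pow_le_pow_left₀ hβ0 hβ1 2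
        nlinarith
      have h4 : Y ^ 2 ≤ C ^ 2 * σ * (U * W) := by nlinarith
      have h5 : (m * X) ^ 2 ≤ 4 * (C ^ 2 * σ * (U * W)) := by
        nlinarith [sq_nonneg (m * X + Y + Y)]
      have h6 : X ^ 2 ≤ 4 * (m * X) ^ 2 := by
        have : 1 ≤ 4 * m ^ 2 := by nlinarith
        nlinarith [sq_nonneg X]
      rw [hsq]
      nlinarith
  · rcases (h0 t).eq_or_lt with h | h
    · simp only [hψ, ← h, div_zero]; positivity
    · simp only [hψ]
      rw [div_le_iff₀ h, div_le_iff₀ hm0]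
      have := hker t
      have h1 : 0 ≤ C * k0 t := by positivity
      nlinarith

/-- **Module A'**. -/
theorem transport : TransportStmt := by
  intro D V _ _ ν k0 C ρ β e ⟨hL, nf, ψ, hS, hψ⟩
  have hsum : ∀ Φ : (Om D → V) → ℝ, ∑ x : Om D → V, Φ (e ∘ x) = ∑ x, Φ x := fun Φ =>
    Fintype.sum_equiv (Equiv.piCongrRight fun _ => e.toEquiv) _ _ fun _ => rfl
  have hexp : ∀ g : V → ℝ, 𝔼 s, g (e s) = 𝔼 s, g s := fun g =>
    Fintype.expect_equiv e.toEquiv _ _ fun _ => rfl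
  have hexp' : ∀ g : V → ℝ, 𝔼 s, g (e.symm s) = 𝔼 s, g s := fun g =>
    Fintype.expect_equiv e.symm.toEquiv _ _ fun _ => rfl
  have hsum' : ∀ g : V → ℝ, ∑ s, g (e.symm s) = ∑ s, g s := fun g =>
    Fintype.sum_equiv e.symm.toEquiv _ _ fun _ => rfl
  have hee : ∀ x : Om D → V, e.symm ∘ e ∘ x = x := fun x => by funext c; simp
  have hpair : ∀ (κ u v : V → ℝ), 𝔼 s, 𝔼 t, u (e.symm s) * v (e.symm t) * κ (t - s) =
      𝔼 s, 𝔼 t, u s * v t * κ (e (t - s)) := fun κ u v => by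
    rw [← hexp]
    refine expect_congr rfl fun s _ => ?_
    rw [← hexp]
    simp
  refine ⟨⟨fun x => hL.nonneg _, (hsum ν).trans hL.sum_one, fun x c => ?_, fun i j => ⟨fun x => ?_,
    fun F => ?_⟩, fun w g G hg hG => ?_⟩, fun x => nf (e ∘ x), ψ ∘ e, ⟨fun x => hS.nf_nonneg _,
    fun x => hS.nf_le _, (hsum fun x => ν x - nf x).trans_le hS.fail_le, ?_,
    fun t => hS.kap_nonneg (e t), (hexp fun t => k0 t * ψ t).trans hS.kap_mean, fun u v hu => ?_⟩,
    fun t => hψ (e t)⟩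
  · rw [← hL.transl (e ∘ x) (e c)]
    congr 1; funext w; simp
  · exact (hL.rp i j).1 (e ∘ x)
  · have h1 := (hL.rp i j).2 fun x => F (e.symm ∘ x)
    rw [← hsum] at h1
    simpa only [Function.comp_assoc, hee] using h1
  · have h1 := hL.maxcorr w (fun s => g (e.symm s)) (fun x => G (e.symm ∘ x))
      ((hsum' g).trans hg) fun x v => by rw [Function.comp_update, hG]
    rw [← hsum, ← hsum fun x => ν x * G (e.symm ∘ x) ^ 2, hexp' fun s => g s ^ 2] at h1
    simpa only [hee, Function.comp_apply, AddEquiv.symm_apply_apply] using h1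
  · obtain ⟨m, hm0, hm1, hm⟩ := hS.pair
    refine ⟨m, hm0, hm1, fun u v => ?_⟩
    have h1 := hm (fun s => u (e.symm s)) fun s => v (e.symm s)
    rw [← hsum, hpair fun t => k0 t * ψ t] at h1
    simpa only [Function.comp_apply, AddEquiv.symm_apply_apply] using h1
  · have h1 := hS.op (fun s => u (e.symm s)) (fun s => v (e.symm s)) ((hsum' u).trans hu)
    rw [hpair fun t => k0 t * ψ t, hexp' fun s => u s ^ 2, hexp' fun s => v s ^ 2] at h1
    exact h1

end Crest.Agent.N41.Local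
end

-- ▼ part N41/ES/Bessel
section

/-!
# Row 41, part B2: equidistribution, Bessel's inequality for lifts, and `LiftStmt`
-/

set_option autoImplicit false
open Finset
open scoped BigOperators

namespace Crest.Agent.N41.ES

variable {ι : Type} [Fintype ι] [DecidableEq ι] {n : ι → ℕ} [∀ i, NeZero (n i)]

/-- a full period covers the product once -/
lemma sum_range_red (hc : Pairwise fun i j => Nat.Coprime (n i) (n j))
    (φ : (∀ i, ZMod (n i)) → ℝ) (a₀ : ℤ) :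
    ∑ m ∈ range (qq n univ), φ (red n (a₀ + m)) = qq n univ * 𝔼 x, φ x := by
  classical
  have hinj : Set.InjOn (fun m : ℕ => red n (a₀ + m)) (range (qq n univ)) := by
    intro m hm m' hm' h
    have h1 := qq_dvd_sub hc (U := univ) (a := a₀ + m) (b := a₀ + m') fun i _ => congrFun h i
    rw [add_sub_add_left_eq_sub] at h1
    have h2 : m ≡ m' [MOD qq n univ] := (Nat.modEq_iff_dvd).2 h1
    exact Nat.ModEq.eq_of_lt_of_lt h2 (by simpa using hm) (by simpa using hm')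
  have himg : (range (qq n univ)).image (fun m : ℕ => red n (a₀ + m)) = univ := by
    apply Finset.eq_univ_of_card
    rw [Finset.card_image_of_injOn hinj, Finset.card_range, card_G]
  rw [Fintype.expect_eq_sum_div_card, card_G, mul_div_cancel₀ _ (qq_pos univ).ne', ← himg,
    Finset.sum_image hinj]

omit [Fintype ι] [DecidableEq ι] [∀ i, NeZero (n i)] in
lemma DepOn.red_periodic {W : Finset ι} {φ : (∀ i, ZMod (n i)) → ℝ} (h : DepOn W φ) (a k : ℤ) :
    φ (red n (a + qq n W * k)) = φ (red n a) :=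
  h _ _ fun _ hi => (intCast_eq_of_qq_dvd (by simp) hi).symm

omit [Fintype ι] [DecidableEq ι] [∀ i, NeZero (n i)] in
lemma DepOn.sum_range_mul_add {W : Finset ι} {φ : (∀ i, ZMod (n i)) → ℝ} (h : DepOn W φ) (a₀ : ℤ)
    (k r : ℕ) : ∑ m ∈ range (qq n W * k + r), φ (red n (a₀ + m)) =
      k * ∑ m ∈ range (qq n W), φ (red n (a₀ + m)) + ∑ m ∈ range r, φ (red n (a₀ + m)) := by
  have key : ∀ k r : ℕ, ∑ m ∈ range (qq n W * k + r), φ (red n (a₀ + m)) =
      ∑ m ∈ range (qq n W * k), φ (red n (a₀ + m)) + ∑ m ∈ range r, φ (red n (a₀ + m)) := by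
    intro k r
    rw [Finset.sum_range_add]
    congr 1
    refine Finset.sum_congr rfl fun m _ => ?_
    rw [← h.red_periodic (a₀ + m) k]
    congr 2
    push_cast; ring
  rw [key]
  congr 1
  induction k with
  | zero => simp
  | succ k ih => rw [mul_add, mul_one, key, ih]; push_cast; ring

/-- one period of a function of the coordinates in `W` -/
lemma DepOn.sum_period (hc : Pairwise fun i j => Nat.Coprime (n i) (n j)) {W : Finset ι}
    {φ : (∀ i, ZMod (n i)) → ℝ} (h : DepOn W φ) (a₀ : ℤ) :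
    ∑ m ∈ range (qq n W), φ (red n (a₀ + m)) = qq n W * 𝔼 x, φ x := by
  have h4 : qq n univ = qq n W * qq n Wᶜ + 0 := by
    rw [← qq_union n disjoint_compl_right, Finset.union_compl, add_zero]
  have h1 := sum_range_red hc φ a₀
  rw [h4, h.sum_range_mul_add] at h1
  simp only [Finset.range_zero, Finset.sum_empty, add_zero, Nat.cast_mul] at h1
  refine mul_left_cancel₀ (qq_pos (n := n) Wᶜ).ne' ?_
  rw [h1]; ring

/-- equidistribution on intervals -/
lemma DepOn.sum_range_le (hc : Pairwise fun i j => Nat.Coprime (n i) (n j)) {W : Finset ι}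
    {φ : (∀ i, ZMod (n i)) → ℝ} (h : DepOn W φ) (a₀ : ℤ) (N : ℕ) :
    |∑ m ∈ range N, φ (red n (a₀ + m)) - N * 𝔼 x, φ x| ≤ 2 * qq n W * 𝔼 x, |φ x| := by
  have hq : 0 < qq n W := one_le_qq one_le_n W
  have hr := Nat.mod_lt N hq
  have hN := Nat.div_add_mod N (qq n W)
  generalize N / qq n W = k at hN
  generalize N % qq n W = r at hN hr
  subst hN
  rw [h.sum_range_mul_add, h.sum_period hc]
  have h1 : |∑ m ∈ range r, φ (red n (a₀ + m))| ≤ qq n W * 𝔼 x, |φ x| := by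
    rw [← (h.comp fun t => |t|).sum_period hc a₀]
    exact (Finset.abs_sum_le_sum_abs _ _).trans (Finset.sum_le_sum_of_subset_of_nonneg
      (Finset.range_mono hr.le) fun _ _ _ => abs_nonneg _)
  have h2 : |(r : ℝ) * 𝔼 x, φ x| ≤ qq n W * 𝔼 x, |φ x| := by
    rw [abs_mul, Nat.abs_cast]
    exact mul_le_mul (by exact_mod_cast hr.le) (Finset.abs_expect_le _ _) (abs_nonneg _)
      (by positivity)
  have h3 : (k : ℝ) * (qq n W * 𝔼 x, φ x) + ∑ m ∈ range r, φ (red n (a₀ + m)) -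
      ((qq n W * k + r : ℕ) : ℝ) * 𝔼 x, φ x =
      ∑ m ∈ range r, φ (red n (a₀ + m)) - r * 𝔼 x, φ x := by push_cast; ring
  rw [h3]
  refine (abs_sub _ _).trans ?_
  linarith

/-- the dual form of Bessel's inequality -/
lemma sum_range_proj_sq_le (hc : Pairwise fun i j => Nat.Coprime (n i) (n j))
    {F : Finset (Finset ι)} {y : ℝ} (hF : ∀ T ∈ F, (qq n T : ℝ) ≤ y) (hcard : (F.card : ℝ) ≤ y)
    (f : (∀ i, ZMod (n i)) → ℝ) (a₀ : ℤ) (N : ℕ) :
    ∑ m ∈ range N, proj F f (red n (a₀ + m)) ^ 2 ≤ (N + 2 * y ^ 3) * 𝔼 x, proj F f x ^ 2 := by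
  have hy : 0 ≤ y := le_trans (by positivity) hcard
  have h1 : ∀ T ∈ F, ∀ U ∈ F, ∑ m ∈ range N, es T f (red n (a₀ + m)) * es U f (red n (a₀ + m)) ≤
      N * (𝔼 x, es T f x * es U f x) + y ^ 2 * ((𝔼 x, es T f x ^ 2) + 𝔼 x, es U f x ^ 2) := by
    intro T hT U hU
    have h2 := ((depOn_es T f).mul (depOn_es U f)).sum_range_le hc a₀ N
    have h3 : (qq n (T ∪ U) : ℝ) ≤ y ^ 2 :=
      calc (qq n (T ∪ U) : ℝ) ≤ qq n T * qq n U := by exact_mod_cast qq_union_le one_le_n T U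
        _ ≤ y * y := mul_le_mul (hF T hT) (hF U hU) (by positivity) hy
        _ = y ^ 2 := by ring
    have h4 : 2 * 𝔼 x, |es T f x * es U f x| ≤ (𝔼 x, es T f x ^ 2) + 𝔼 x, es U f x ^ 2 := by
      rw [← Finset.expect_add_distrib, Finset.mul_expect]
      refine Finset.expect_le_expect fun x _ => ?_
      rw [abs_mul, ← sq_abs (es T f x), ← sq_abs (es U f x)]
      nlinarith [sq_nonneg (|es T f x| - |es U f x|)]
    have h5 : 0 ≤ 𝔼 x, |es T f x * es U f x| := Finset.expect_nonneg fun _ _ => abs_nonneg _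
    have h6 := (abs_le.1 h2).2
    have h7 : 2 * (qq n (T ∪ U) : ℝ) * 𝔼 x, |es T f x * es U f x| ≤
        y ^ 2 * ((𝔼 x, es T f x ^ 2) + 𝔼 x, es U f x ^ 2) := by
      rw [mul_comm 2, mul_assoc]
      exact mul_le_mul h3 h4 (by positivity) (by positivity)
    linarith
  have h2 : ∑ m ∈ range N, proj F f (red n (a₀ + m)) ^ 2 = ∑ T ∈ F, ∑ U ∈ F,
      ∑ m ∈ range N, es T f (red n (a₀ + m)) * es U f (red n (a₀ + m)) := by
    simp only [proj, sq, Finset.sum_mul_sum]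
    rw [Finset.sum_comm]
    exact Finset.sum_congr rfl fun T _ => Finset.sum_comm
  have h3 : ∑ T ∈ F, ∑ U ∈ F, 𝔼 x, es T f x * es U f x = 𝔼 x, proj F f x ^ 2 := by
    simp only [proj, sq, Finset.sum_mul_sum]
    rw [Finset.expect_sum_comm]
    exact Finset.sum_congr rfl fun T _ => (Finset.expect_sum_comm _ _ _).symm
  rw [h2]
  refine (Finset.sum_le_sum fun T hT => Finset.sum_le_sum fun U hU => h1 T hT U hU).trans ?_
  simp only [Finset.sum_add_distrib, ← Finset.mul_sum, h3, Finset.sum_const, nsmul_eq_mul,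
    ← parseval_proj]
  have h4 := expect_sq_nonneg (proj F f)
  have h5 : y ^ 2 * (F.card * 𝔼 x, proj F f x ^ 2) ≤ y ^ 2 * (y * 𝔼 x, proj F f x ^ 2) := by
    gcongr
  nlinarith

/-- Bessel's inequality for the lift of a subset of an interval -/
lemma bessel_interval (hc : Pairwise fun i j => Nat.Coprime (n i) (n j))
    {F : Finset (Finset ι)} {y : ℝ} (hF : ∀ T ∈ F, (qq n T : ℝ) ≤ y) (hcard : (F.card : ℝ) ≤ y)
    {A : Finset ℤ} {x₀ L : ℝ} (hA : InI A x₀ L) (hL : 0 < L) :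
    𝔼 x, proj F (lift n A L) x ^ 2 ≤ (L + 1) * (L + 1 + 2 * y ^ 3) / L ^ 2 := by
  have hy : 0 ≤ y := le_trans (by positivity) hcard
  set h := proj F (lift n A L)
  set E := 𝔼 x, h x ^ 2
  have hE : 0 ≤ E := expect_sq_nonneg h
  have h1 : E = 1 / L * ∑ a ∈ A, h (red n a) := by
    rw [← expect_lift_mul]
    simp only [E, h, ← expect_proj_mul_self, mul_comm]
  have h2 : ∑ a ∈ A, h (red n a) ^ 2 ≤ (L + 1 + 2 * y ^ 3) * E := by
    have h3 := sum_range_proj_sq_le hc hF hcard (lift n A L) ⌈x₀⌉ ⌈L⌉₊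
    have h4 : ∑ a ∈ A, h (red n a) ^ 2 ≤ ∑ m ∈ range ⌈L⌉₊, h (red n (⌈x₀⌉ + m)) ^ 2 := by
      refine (Finset.sum_le_sum_of_subset_of_nonneg (InI.subset_Ico hA)
        fun _ _ _ => sq_nonneg _).trans (le_of_eq ?_)
      symm
      refine Finset.sum_nbij' (fun m : ℕ => ⌈x₀⌉ + (m : ℤ)) (fun a => (a - ⌈x₀⌉).toNat)
        ?_ ?_ ?_ ?_ ?_
      · intro m hm; simp only [Finset.mem_range] at hm; simp only [Finset.mem_Ico]; omega
      · intro a ha; simp only [Finset.mem_Ico] at ha; simp only [Finset.mem_range]; omega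
      · intro m _; simp
      · intro a ha; simp only [Finset.mem_Ico] at ha; omega
      · intro m _; rfl
    refine h4.trans (h3.trans (mul_le_mul_of_nonneg_right ?_ hE))
    linarith [Nat.ceil_lt_add_one hL.le]
  have h3 : (∑ a ∈ A, h (red n a)) ^ 2 ≤ (L + 1) * ((L + 1 + 2 * y ^ 3) * E) :=
    sq_sum_le_card_mul_sum_sq.trans (mul_le_mul (card_le_of_inI hA hL.le) h2
      (Finset.sum_nonneg fun _ _ => sq_nonneg _) (by positivity))
  have h4 : ∑ a ∈ A, h (red n a) = L * E := by rw [h1]; field_simp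
  rw [h4] at h3
  rw [le_div_iff₀ (by positivity)]
  rcases hE.eq_or_lt with h0 | h0
  · rw [← h0, zero_mul]; positivity
  · refine le_of_mul_le_mul_right ?_ h0
    nlinarith

/-- Bessel's inequality for the lift of a subset of a progression -/
lemma bessel_class (hc : Pairwise fun i j => Nat.Coprime (n i) (n j))
    {F : Finset (Finset ι)} {S : Finset ι} (hS : ∀ T ∈ F, Disjoint T S) {y : ℝ}
    (hF : ∀ T ∈ F, (qq n T : ℝ) ≤ y) (hcard : (F.card : ℝ) ≤ y) {c μ : ℤ} (hμ : 0 < μ)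
    (hu : ∀ i, i ∉ S → IsUnit (μ : ZMod (n i))) {A : Finset ℤ} (hAc : ∀ a ∈ A, μ ∣ a - c)
    {x₀ L : ℝ} (hA : InI A x₀ L) (hL : 0 < L) :
    𝔼 x, proj F (lift n A (L / μ)) x ^ 2 ≤ (L / μ + 1) * (L / μ + 1 + 2 * y ^ 3) / (L / μ) ^ 2 := by
  have h1 := bessel_interval hc hF hcard (inI_image_div hμ hAc hA) (by positivity)
  rw [← proj_lift_image_aff hS c μ hμ.ne' hu, image_div_eq hAc] at h1
  rwa [expect_comp_equiv (fun i => aff (n i) c μ) fun x => proj F (lift n A (L / μ)) x ^ 2] at h1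

/-- **Module B2** -/
theorem liftStmt : LiftStmt := by
  intro ι _ _ q _ hp hinj A x₀ ℓ y W s hW hWq hA hs hy hℓ
  have hc := pairwise_coprime hp hinj
  have hW' : (1 : ℝ) ≤ W := by exact_mod_cast hW
  have hy5 : (0 : ℝ) < y ^ 5 * W := by positivity
  have hℓ0 : 0 < ℓ := hy5.trans_le hℓ
  have key : ∀ (U : Finset ι) (x : ∀ i, ZMod (q i)), ∃ c : ℤ,
      ∀ a ∈ A.filter fun a => ∀ i ∈ U, (a : ZMod (q i)) = x i, ((W * qq q U : ℕ) : ℤ) ∣ a - c := by
    intro U x
    rcases (A.filter fun a => ∀ i ∈ U, (a : ZMod (q i)) = x i).eq_empty_or_nonempty with h | ⟨c, hc'⟩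
    · exact ⟨0, by simp [h]⟩
    · refine ⟨c, fun a ha => ?_⟩
      rw [Finset.mem_filter] at ha hc'
      exact mul_qq_dvd_sub hc (fun i _ => hWq i) ((hs c hc'.1).trans (hs a ha.1).symm)
        fun i hi => by rw [ha.2 i hi, hc'.2 i hi]
  have hin : ∀ p : ℤ → Prop, ∀ [DecidablePred p], InI (A.filter p) x₀ ℓ :=
    fun p _ a ha => hA a (Finset.mem_filter.1 ha).1
  have hbig : ∀ U : Finset ι, (qq q U : ℝ) ≤ y → y ^ 4 ≤ ℓ / ((W * qq q U : ℕ) : ℤ) := by
    intro U hU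
    have := qq_pos (n := q) U
    push_cast
    rw [le_div_iff₀ (by positivity)]
    calc y ^ 4 * (W * qq q U) ≤ y ^ 4 * (W * y) := by gcongr
      _ = y ^ 5 * W := by ring
      _ ≤ ℓ := hℓ
  have hpos : ∀ U : Finset ι, (0 : ℤ) < ((W * qq q U : ℕ) : ℤ) := fun U => by
    have := one_le_qq (n := q) one_le_n U
    exact_mod_cast Nat.mul_pos hW this
  have hy4 : (16 : ℝ) ≤ y ^ 4 := by
    have := pow_le_pow_left₀ (by norm_num) hy 4
    linarith
  constructor
  · intro U hU x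
    obtain ⟨c, hc'⟩ := key U x
    have h1 := card_le_of_class (hpos U) hc' (hin _) hℓ0.le
    have h2 := hbig U hU
    have h3 := qq_pos (n := q) U
    rw [avg_compl_lift, abs_of_nonneg (by positivity)]
    have h4 : (qq q U : ℝ) / (ℓ / W) = (ℓ / ((W * qq q U : ℕ) : ℤ))⁻¹ := by
      push_cast; field_simp
    rw [h4]
    generalize ℓ / ((W * qq q U : ℕ) : ℤ) = L at h1 h2
    rw [inv_mul_le_iff₀ (by linarith)]
    linarith
  · intro U s' F hU hF
    obtain ⟨c, hc'⟩ := key U s'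
    have hcard : (F.card : ℝ) ≤ y :=
      card_le_of_qq_le one_le_n (qq_injective hp hinj) (by linarith) fun T hT => (hF T hT).2
    have h1 := bessel_class hc (fun T hT => (hF T hT).1) (fun T hT => (hF T hT).2) hcard (hpos U)
      (fun i hi => isUnit_mul_qq hc (hWq i) hi) hc' (hin _) hℓ0
    have h2 := hbig U hU
    have h4 : ℓ / W / qq q U = ℓ / ((W * qq q U : ℕ) : ℤ) := by
      push_cast; rw [div_div]
    rw [proj_res_lift fun T hT => (hF T hT).1, h4]
    refine h1.trans ?_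
    generalize ℓ / ((W * qq q U : ℕ) : ℤ) = L at h2
    have h5 : 2 * y ^ 3 ≤ L := by
      have : 2 * y ^ 3 ≤ y * y ^ 3 := by gcongr
      nlinarith
    rw [div_le_iff₀ (by nlinarith)]
    nlinarith

end Crest.Agent.N41.ES
end

-- ▼ part N41/ES/HC

/-!
# Row 41, part B3: the two-function global hypercontractive inequality and moments
-/

set_option autoImplicit false
open Finset
open scoped BigOperators

namespace Crest.Agent.N41.ES

variable {ι : Type} [Fintype ι] [DecidableEq ι] {V : ι → Type} [∀ i, Fintype (V i)]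
  [∀ i, Nonempty (V i)]

/-- symbol of the derivative in the directions `S` followed by the noise operator `T_2` on `M \ S` -/
noncomputable def mu (M S U : Finset ι) : ℝ := if S ⊆ U then 2 ^ (U ∩ (M \ S)).card else 0

/-- the local squared norm -/
noncomputable def Nn (M S : Finset ι) (u : (∀ i, V i) → ℝ) : (∀ i, V i) → ℝ :=
  avg (M \ S) fun z => op (mu M S) u z ^ 2

/-- the one-coordinate Laplacian -/
noncomputable def dd (i : ι) (f : (∀ i, V i) → ℝ) : (∀ i, V i) → ℝ := fun x => f x - avg {i} f x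

omit [∀ i, Nonempty (V i)] in
lemma avg_single_eq_op (i : ι) (f : (∀ i, V i) → ℝ) :
    avg {i} f = op (fun U => if i ∈ U then 0 else 1) f := by
  rw [avg_eq_op]; congr 1; funext U
  by_cases h : i ∈ U <;> simp [h]

lemma dd_eq_op (i : ι) (f : (∀ i, V i) → ℝ) :
    dd i f = op (fun U => if i ∈ U then 1 else 0) f := by
  funext x
  have h : op (fun U => (if i ∈ U then 1 else 0) + if i ∈ U then 0 else 1) f = f := by
    conv_rhs => rw [← op_one f]
    congr 1; funext U; split_ifs <;> simp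
  have h2 := congrFun h x
  rw [op_symbol_add] at h2
  simp only [dd, avg_single_eq_op]
  linarith

lemma avg_dd (i : ι) (f : (∀ i, V i) → ℝ) : avg {i} (dd i f) = fun _ => 0 := by
  unfold dd; rw [avg_sub, avg_idem]; simp

omit [∀ i, Nonempty (V i)] in
lemma Nn_nonneg (M S : Finset ι) (u : (∀ i, V i) → ℝ) (x : ∀ i, V i) : 0 ≤ Nn M S u x :=
  avg_nonneg _ (fun _ => sq_nonneg _) x

lemma depOn_Nn {W : Finset ι} {u : (∀ i, V i) → ℝ} (h : DepOn W u) (M S : Finset ι) :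
    DepOn W (Nn M S u) :=
  (((h.op _).comp fun t => t ^ 2).avg _).mono Finset.sdiff_subset

lemma Nn_insert_insert {i : ι} {M S : Finset ι} (hi : i ∉ M) (f : (∀ i, V i) → ℝ) :
    Nn (insert i M) (insert i S) f = Nn M S (dd i f) := by
  have h1 : insert i M \ insert i S = M \ S := by
    ext j; simp only [Finset.mem_sdiff, Finset.mem_insert]
    constructor
    · rintro ⟨h1 | h1, h2⟩
      · exact absurd (Or.inl h1) h2
      · exact ⟨h1, fun h => h2 (Or.inr h)⟩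
    · rintro ⟨h1, h2⟩
      exact ⟨Or.inr h1, fun h => h.elim (fun h => hi (h ▸ h1)) h2⟩
  have h2 : op (mu (insert i M) (insert i S)) f = op (mu M S) (dd i f) := by
    rw [dd_eq_op, op_op]; congr 1; funext U
    simp only [mu, h1, Finset.insert_subset_iff]
    by_cases h : i ∈ U <;> simp [h]
  simp only [Nn, h1, h2]

lemma Nn_insert {i : ι} {M S : Finset ι} (hi : i ∉ M) (hS : S ⊆ M) (f : (∀ i, V i) → ℝ) :
    Nn (insert i M) S f =
      fun x => Nn M S (avg {i} f) x + 4 * avg {i} (Nn M S (dd i f)) x := by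
  have hiS : i ∉ S := fun h => hi (hS h)
  have h1 : insert i M \ S = insert i (M \ S) := Finset.insert_sdiff_of_notMem _ hiS
  have h2 : op (mu (insert i M) S) f =
      fun z => op (mu M S) (avg {i} f) z + 2 * op (mu M S) (dd i f) z := by
    rw [dd_eq_op, avg_single_eq_op, op_op, op_op]
    funext z
    simp only [op, Finset.mul_sum, ← Finset.sum_add_distrib, ← mul_assoc, ← add_mul]
    refine Finset.sum_congr rfl fun U _ => congrArg (· * _) ?_
    simp only [mu, h1]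
    by_cases h : i ∈ U
    · rw [Finset.inter_insert_of_mem h, Finset.card_insert_of_notMem (by simp [hi])]
      split_ifs <;> ring
    · rw [Finset.inter_insert_of_notMem h]
      split_ifs <;> ring
  have hA : DepOn {i}ᶜ (op (mu M S) (avg {i} f)) := (depOn_avg {i} f).op _
  have hD : avg {i} (op (mu M S) (dd i f)) = fun _ => 0 := by
    rw [avg_op_comm, avg_dd]; funext x; simp [op, es_zero]
  have h3 : avg {i} (fun z => op (mu (insert i M) S) f z ^ 2) = fun z =>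
      op (mu M S) (avg {i} f) z ^ 2 + 4 * avg {i} (fun z => op (mu M S) (dd i f) z ^ 2) z := by
    have : (fun z => op (mu (insert i M) S) f z ^ 2) = fun z => (op (mu M S) (avg {i} f) z ^ 2 +
        (4 * op (mu M S) (avg {i} f) z) * op (mu M S) (dd i f) z) +
        4 * op (mu M S) (dd i f) z ^ 2 := by
      funext z; rw [h2]; ring
    rw [this, avg_add, avg_add, avg_smul, (hA.comp fun t => t ^ 2).avg_eq disjoint_compl_left,
      avg_mul_left (hA.comp fun t => 4 * t) disjoint_compl_left, hD]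
    simp
  unfold Nn
  rw [h1, avg_insert, avg_comm, h3, avg_add, avg_smul, avg_comm]

lemma one_coord (i : ι) (f g : (∀ i, V i) → ℝ) (x : ∀ i, V i) :
    avg {i} (fun y => f y ^ 2 * g y ^ 2) x ≤ avg {i} (fun y =>
      avg {i} f y ^ 2 * avg {i} g y ^ 2 + 4 * (avg {i} f y ^ 2 * dd i g y ^ 2) +
      4 * (dd i f y ^ 2 * avg {i} g y ^ 2) + 3 * (dd i f y ^ 2 * dd i g y ^ 2)) x := by
  have ha := depOn_avg {i} f
  have hb := depOn_avg {i} g
  have h1 : ∀ y, f y ^ 2 * g y ^ 2 ≤ (avg {i} f y ^ 2 * avg {i} g y ^ 2 +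
      4 * (avg {i} f y ^ 2 * dd i g y ^ 2) + 4 * (dd i f y ^ 2 * avg {i} g y ^ 2) +
      3 * (dd i f y ^ 2 * dd i g y ^ 2)) + (2 * avg {i} f y ^ 2 * avg {i} g y) * dd i g y +
      (2 * avg {i} f y * avg {i} g y ^ 2) * dd i f y := fun y => by
    have hf : f y = avg {i} f y + dd i f y := by simp [dd]
    have hg : g y = avg {i} g y + dd i g y := by simp [dd]
    generalize avg {i} f y = a at *
    generalize avg {i} g y = b at *
    generalize dd i f y = d at *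
    generalize dd i g y = e at *
    rw [hf, hg]
    nlinarith [sq_nonneg (a * e - b * d), sq_nonneg (a * e - d * e), sq_nonneg (b * d - d * e)]
  refine (avg_mono {i} h1 x).trans (le_of_eq ?_)
  rw [avg_add, avg_add, avg_mul_left (ha.comp₂ hb fun s t => 2 * s ^ 2 * t) disjoint_compl_left,
    avg_mul_left (ha.comp₂ hb fun s t => 2 * s * t ^ 2) disjoint_compl_left, avg_dd, avg_dd]
  simp

/-- the two-function inequality -/
theorem hc2 (M : Finset ι) : ∀ (f g : (∀ i, V i) → ℝ) (x : ∀ i, V i),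
    avg M (fun y => f y ^ 2 * g y ^ 2) x ≤
      ∑ S ∈ M.powerset, 3 ^ S.card * avg S (fun y => Nn M S f y * Nn M S g y) x := by
  induction M using Finset.induction_on with
  | empty =>
    intro f g x
    have : ∀ u : (∀ i, V i) → ℝ, Nn ∅ ∅ u = fun y => u y ^ 2 := fun u => by
      have h : mu (∅ : Finset ι) ∅ = fun _ => 1 := by funext U; simp [mu]
      simp [Nn, h, op_one, avg_empty]
    simp [this, avg_empty]
  | insert i M hi ih =>
    intro f g x
    set a := avg {i} f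
    set b := avg {i} g
    set d := dd i f
    set e := dd i g
    have ha : DepOn {i}ᶜ a := depOn_avg {i} f
    have hb : DepOn {i}ᶜ b := depOn_avg {i} g
    have step1 : avg (insert i M) (fun y => f y ^ 2 * g y ^ 2) x ≤ avg {i} (fun z =>
        avg M (fun y => a y ^ 2 * b y ^ 2) z + 4 * avg M (fun y => a y ^ 2 * e y ^ 2) z +
        4 * avg M (fun y => d y ^ 2 * b y ^ 2) z + 3 * avg M (fun y => d y ^ 2 * e y ^ 2) z) x := by
      rw [avg_insert, avg_comm]
      refine (avg_mono M (one_coord i f g) x).trans (le_of_eq ?_)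
      rw [avg_comm, avg_add (S := M), avg_add (S := M), avg_add (S := M), avg_smul, avg_smul,
        avg_smul]
    have step2 : ∀ z, avg M (fun y => a y ^ 2 * b y ^ 2) z + 4 * avg M (fun y => a y ^ 2 * e y ^ 2) z +
        4 * avg M (fun y => d y ^ 2 * b y ^ 2) z + 3 * avg M (fun y => d y ^ 2 * e y ^ 2) z ≤
        ∑ S ∈ M.powerset, (3 ^ S.card * avg S (fun y => Nn M S a y * Nn M S b y +
          4 * (Nn M S a y * Nn M S e y) + 4 * (Nn M S d y * Nn M S b y)) z +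
          3 ^ (S.card + 1) * avg S (fun y => Nn M S d y * Nn M S e y) z) := fun z => by
      have h1 := ih a b z
      have h2 := ih a e z
      have h3 := ih d b z
      have h4 := ih d e z
      simp only [avg_add, avg_smul, mul_add, Finset.sum_add_distrib, pow_succ' (3 : ℝ),
        mul_left_comm _ (4 : ℝ), mul_assoc, ← Finset.mul_sum]
      linarith
    refine step1.trans ((avg_mono {i} step2 x).trans ?_)
    rw [avg_sum, Finset.sum_powerset_insert hi, ← Finset.sum_add_distrib]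
    refine Finset.sum_le_sum fun S hS => ?_
    have hS' := Finset.mem_powerset.1 hS
    have hiS : i ∉ S := fun h => hi (hS' h)
    rw [avg_add, avg_smul, avg_smul, Finset.card_insert_of_notMem hiS, Nn_insert_insert hi,
      Nn_insert_insert hi, avg_insert i S]
    refine add_le_add (mul_le_mul_of_nonneg_left ?_ (by positivity)) le_rfl
    rw [avg_comm]
    refine avg_mono S (fun y => ?_) x
    rw [Nn_insert hi hS', Nn_insert hi hS', avg_add, avg_add, avg_smul, avg_smul,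
      avg_mul_left (depOn_Nn ha M S) disjoint_compl_left,
      avg_mul_left (depOn_Nn ha M S) disjoint_compl_left,
      avg_mul_right (depOn_Nn hb M S) disjoint_compl_left,
      (depOn_Nn hb M S).avg_eq disjoint_compl_left]
    have := mul_nonneg (avg_nonneg {i} (Nn_nonneg M S d) y) (avg_nonneg {i} (Nn_nonneg M S e) y)
    simp only
    nlinarith

/-- all Efron–Stein parts of level above `a` vanish -/
def Deg (a : ℕ) (f : (∀ i, V i) → ℝ) : Prop := ∀ T : Finset ι, a < T.card → es T f = fun _ => 0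

lemma deg_one : Deg 0 (fun _ : ∀ i, V i => (1 : ℝ)) := fun T hT =>
  (depOn_const ∅ 1).es_eq_zero fun h => by
    rw [Finset.subset_empty.1 h] at hT; simp at hT

lemma Deg.mul {a b : ℕ} {f g : (∀ i, V i) → ℝ} (hf : Deg a f) (hg : Deg b g) :
    Deg (a + b) fun x => f x * g x := by
  intro W hW
  have : (fun x => f x * g x) = fun x => ∑ T, ∑ U, es T f x * es U g x := by
    funext x; rw [← Finset.sum_mul_sum, sum_es, sum_es]
  rw [this, es_sum]
  funext x
  refine Finset.sum_eq_zero fun T _ => ?_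
  rw [es_sum]
  refine Finset.sum_eq_zero fun U _ => ?_
  by_cases hT : a < T.card
  · simp [hf T hT, es_zero]
  by_cases hU : b < U.card
  · simp [hg U hU, es_zero]
  rw [((depOn_es T f).mul (depOn_es U g)).es_eq_zero fun h => ?_]
  have := (Finset.card_le_card h).trans (Finset.card_union_le T U)
  omega

lemma Deg.pow {a : ℕ} {f : (∀ i, V i) → ℝ} (hf : Deg a f) (j : ℕ) :
    Deg (j * a) fun x => f x ^ j := by
  induction j with
  | zero => simpa using deg_one
  | succ j ih => simpa [pow_succ, add_mul] using ih.mul hf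

lemma deg_proj {d : ℕ} {F : Finset (Finset ι)} (hF : ∀ T ∈ F, T.card ≤ d) (f : (∀ i, V i) → ℝ) :
    Deg d (proj F f) := fun T hT => by
  rw [es_proj, if_neg fun h => absurd (hF T h) (by omega)]

omit [∀ i, Fintype (V i)] [∀ i, Nonempty (V i)] in
lemma sum_mu_sq (U : Finset ι) : ∑ S, 3 ^ S.card * mu univ S U ^ 2 = (7 : ℝ) ^ U.card := by
  have h := Finset.sum_pow_mul_eq_add_pow (3 : ℝ) 4 U
  rw [show (3 : ℝ) + 4 = 7 by norm_num] at h
  rw [← h, ← Finset.sum_subset (Finset.subset_univ U.powerset)]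
  · refine Finset.sum_congr rfl fun S hS => ?_
    have hS' := Finset.mem_powerset.1 hS
    have : U ∩ (univ \ S) = U \ S := by ext j; simp
    rw [mu, if_pos hS', this, Finset.card_sdiff_of_subset hS', ← pow_mul, mul_comm _ 2, pow_mul]
    norm_num
  · intro S _ hS
    rw [mu, if_neg (by simpa using hS)]; simp

/-- the product inequality -/
theorem expect_sq_mul_sq_le {a : ℕ} {f g : (∀ i, V i) → ℝ} {B : ℝ} (hB0 : 0 ≤ B)
    (hB : ∀ S x, Nn univ S f x ≤ B) (hg : Deg a g) :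
    𝔼 y, f y ^ 2 * g y ^ 2 ≤ B * 7 ^ a * 𝔼 y, g y ^ 2 := by
  have h1 : 𝔼 y, f y ^ 2 * g y ^ 2 ≤
      𝔼 x, ∑ S, 3 ^ S.card * avg S (fun y => Nn univ S f y * Nn univ S g y) x := by
    rw [← expect_avg univ]
    refine Finset.expect_le_expect fun x _ => ?_
    simpa only [Finset.powerset_univ] using hc2 univ f g x
  refine h1.trans ?_
  rw [Finset.expect_sum_comm]
  have h2 : ∀ S : Finset ι, 𝔼 x, 3 ^ S.card * avg S (fun y => Nn univ S f y * Nn univ S g y) x ≤
      B * ∑ U, 3 ^ S.card * mu univ S U ^ 2 * 𝔼 y, es U g y ^ 2 := fun S => by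
    rw [← Finset.mul_expect, expect_avg]
    simp only [mul_assoc, ← Finset.mul_sum]
    rw [← parseval_op, mul_left_comm, ← expect_avg (univ \ S) fun x => op (mu univ S) g x ^ 2]
    refine mul_le_mul_of_nonneg_left ?_ (pow_nonneg (by norm_num : (0 : ℝ) ≤ 3) _)
    rw [Finset.mul_expect]
    exact Finset.expect_le_expect fun y _ =>
      mul_le_mul_of_nonneg_right (hB S y) (Nn_nonneg _ _ _ _)
  refine (Finset.sum_le_sum fun S _ => h2 S).trans ?_
  rw [← Finset.mul_sum, Finset.sum_comm, mul_assoc, parseval g, Finset.mul_sum univ _ (7 ^ a)]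
  refine mul_le_mul_of_nonneg_left (Finset.sum_le_sum fun U _ => ?_) hB0
  rw [← Finset.sum_mul, sum_mu_sq]
  by_cases hU : a < U.card
  · simp [hg U hU]
  · exact mul_le_mul_of_nonneg_right (pow_le_pow_right₀ (by norm_num) (by omega))
      (expect_sq_nonneg _)

theorem expect_pow_le {d : ℕ} {h : (∀ i, V i) → ℝ} {B : ℝ} (hB0 : 0 ≤ B)
    (hB : ∀ S x, Nn univ S h x ≤ B) (hd : Deg d h) (l j : ℕ) (hj : j ≤ l) :
    𝔼 y, h y ^ (2 * j) ≤ (B * 7 ^ (l * d)) ^ j := by
  induction j with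
  | zero => simp
  | succ j ih =>
    have h1 := expect_sq_mul_sq_le hB0 hB (hd.pow j)
    have h2 : ∀ y, h y ^ (2 * (j + 1)) = h y ^ 2 * (h y ^ j) ^ 2 := fun y => by ring
    have h3 : ∀ y, (h y ^ j) ^ 2 = h y ^ (2 * j) := fun y => by ring
    simp only [h2]
    refine h1.trans ?_
    simp only [h3]
    rw [pow_succ']
    refine mul_le_mul (mul_le_mul_of_nonneg_left (pow_le_pow_right₀ (by norm_num)
      (Nat.mul_le_mul_right _ (by omega))) hB0) (ih (by omega)) ?_ (by positivity)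
    exact Finset.expect_nonneg fun y _ => by rw [← h3]; positivity

/-- local norms of a truncation of a global function -/
lemma Nn_proj_le {q : ι → ℕ} (hq : ∀ i, 1 ≤ q i) {y : ℝ} {f : (∀ i, V i) → ℝ}
    (hf : Glob q (y ^ 2) f) {U : Finset ι} (hU : (qq q U : ℝ) ≤ y) (s : ∀ i, V i)
    {F : Finset (Finset ι)} {d : ℕ}
    (hF : ∀ T ∈ F, Disjoint T U ∧ (qq q T : ℝ) ≤ y ∧ T.card ≤ d) (S : Finset ι) (x : ∀ i, V i) :
    Nn univ S (proj F (res U s f)) x ≤ 4 * 16 ^ d := by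
  have hy : 1 ≤ y := le_trans (by exact_mod_cast one_le_qq hq U) hU
  unfold Nn
  rw [← Finset.compl_eq_univ_sdiff, avg_compl_eq]
  change 𝔼 z, res S x (op (mu univ S) (proj F (res U s f))) z ^ 2 ≤ _
  by_cases hS : ∃ T ∈ F, S ⊆ T
  swap
  · have : op (mu univ S) (proj F (res U s f)) = fun _ => 0 := by
      rw [op_proj]; funext z
      refine Finset.sum_eq_zero fun T _ => ?_
      by_cases hT : T ∈ F
      · have : ¬ S ⊆ T := fun h => hS ⟨T, hT, h⟩
        simp [mu, this]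
      · simp [hT]
    rw [this]; simp [res]
  obtain ⟨T₀, hT₀, hST₀⟩ := hS
  have hSd : S.card ≤ d := (Finset.card_le_card hST₀).trans (hF T₀ hT₀).2.2
  let m : Finset ι → ℝ := fun T =>
    if Disjoint T S then (if S ∪ T ∈ F then mu univ S (S ∪ T) else 0) else 0
  let F' : Finset (Finset ι) := univ.filter fun T => Disjoint T S ∧ S ∪ T ∈ F
  have h1 : res S x (op (mu univ S) (proj F (res U s f))) = fun z => ∑ W ∈ S.powerset,
      (-1 : ℝ) ^ (S \ W).card * op m (res W x (res U s f)) z := by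
    rw [op_proj, res_op]
    funext z
    rw [Finset.sum_eq_single S]
    · intro U' hU' hne
      refine Finset.sum_eq_zero fun W _ => mul_eq_zero_of_right _ ?_
      refine Finset.sum_eq_zero fun T _ => mul_eq_zero_of_left ?_ _
      dsimp only
      split_ifs with h1 h2
      · rw [mu, if_neg]
        intro h
        refine hne (Finset.Subset.antisymm (Finset.mem_powerset.1 hU') fun j hj => ?_)
        exact (Finset.mem_union.1 (h hj)).resolve_right (Finset.disjoint_right.1 h1 hj)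
      · rfl
      · rfl
    · simp
  have h2 : ∀ W ∈ S.powerset, 𝔼 z, op m (res W x (res U s f)) z ^ 2 ≤ 4 ^ d * 4 := fun W hW => by
    have hW' := Finset.mem_powerset.1 hW
    refine (expect_sq_op_le_proj (F := F') (c := 4 ^ d) (fun T hT => ?_) (fun T hT => ?_) _).trans
      (mul_le_mul_of_nonneg_left ?_ (by positivity))
    · simp only [F', Finset.mem_filter, Finset.mem_univ, true_and, not_and] at hT
      simp only [m]
      split_ifs with h1 h2
      · exact absurd h2 (hT h1)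
      · rfl
      · rfl
    · simp only [F', Finset.mem_filter, Finset.mem_univ, true_and] at hT
      simp only [m, if_pos hT.1, if_pos hT.2, mu, if_pos Finset.subset_union_left]
      rw [← pow_mul, mul_comm _ 2, pow_mul]
      norm_num
      exact pow_le_pow_right₀ (by norm_num)
        ((Finset.card_le_card Finset.inter_subset_left).trans (hF _ hT.2).2.2)
    · rw [res_res]
      refine hf.bes _ _ _ ?_ fun T hT => ?_
      · have h3 : (qq q W : ℝ) ≤ y :=
          le_trans (by exact_mod_cast qq_mono hq (hW'.trans hST₀)) (hF T₀ hT₀).2.1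
        calc (qq q (U ∪ W) : ℝ) ≤ qq q U * qq q W := by exact_mod_cast qq_union_le hq U W
          _ ≤ y * y := mul_le_mul hU h3 (by positivity) (by positivity)
          _ = y ^ 2 := by ring
      · simp only [F', Finset.mem_filter, Finset.mem_univ, true_and] at hT
        refine ⟨Finset.disjoint_union_right.2 ⟨(hF _ hT.2).1.mono_left Finset.subset_union_right,
          hT.1.mono_right hW'⟩, ?_⟩
        calc (qq q T : ℝ) ≤ qq q (S ∪ T) := by exact_mod_cast qq_mono hq Finset.subset_union_right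
          _ ≤ y := (hF _ hT.2).2.1
          _ ≤ y ^ 2 := by nlinarith
  rw [h1]
  have h3 : ∀ z, (∑ W ∈ S.powerset, (-1 : ℝ) ^ (S \ W).card * op m (res W x (res U s f)) z) ^ 2 ≤
      2 ^ S.card * ∑ W ∈ S.powerset, op m (res W x (res U s f)) z ^ 2 := fun z => by
    refine sq_sum_le_card_mul_sum_sq.trans (le_of_eq ?_)
    rw [Finset.card_powerset]
    push_cast
    congr 1
    refine Finset.sum_congr rfl fun W _ => ?_
    rw [mul_pow, ← pow_mul, mul_comm _ 2, pow_mul]; simp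
  refine (Finset.expect_le_expect fun z _ => h3 z).trans ?_
  rw [← Finset.mul_expect, Finset.expect_sum_comm]
  have h4 := Finset.sum_le_card_nsmul _ _ _ h2
  rw [Finset.card_powerset, nsmul_eq_mul] at h4
  push_cast at h4
  have h5 : (2 : ℝ) ^ S.card ≤ 2 ^ d := pow_le_pow_right₀ (by norm_num) hSd
  calc (2 : ℝ) ^ S.card * ∑ W ∈ S.powerset, 𝔼 z, op m (res W x (res U s f)) z ^ 2
      ≤ 2 ^ S.card * (2 ^ S.card * (4 ^ d * 4)) := mul_le_mul_of_nonneg_left h4 (by positivity)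
    _ ≤ 2 ^ d * (2 ^ d * (4 ^ d * 4)) := by gcongr
    _ = 4 * 16 ^ d := by
      rw [show (16 : ℝ) = 2 * 2 * 4 by norm_num, mul_pow, mul_pow]; ring

/-- **Module B3** -/
theorem hc : HCStmt := by
  intro l
  have h1 : (1 : ℝ) ≤ 7 ^ l := one_le_pow₀ (by norm_num)
  refine ⟨(16 * 7 ^ l) ^ l, one_le_pow₀ (by linarith), ?_⟩
  intro ι _ _ V _ _ q y f U s F d hq hf hU hF
  refine (expect_pow_le (B := 4 * 16 ^ d) (by positivity) (Nn_proj_le hq hf hU s hF)
    (deg_proj (fun T hT => (hF T hT).2.2) _) l l le_rfl).trans ?_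
  have h3 : (((16 : ℝ) * 7 ^ l) ^ l) ^ (d + 1) = ((16 * 7 ^ l) ^ (d + 1)) ^ l := by
    rw [← pow_mul, ← pow_mul, mul_comm l]
  have h4 : (4 : ℝ) * 16 ^ d * 7 ^ (l * d) ≤ (16 * 7 ^ l) ^ (d + 1) := by
    rw [pow_succ, mul_pow, ← pow_mul]
    have h2 : (0 : ℝ) ≤ 16 ^ d * 7 ^ (l * d) := by positivity
    nlinarith
  rw [h3]
  exact pow_le_pow_left₀ (by positivity) h4 l

end Crest.Agent.N41.ES
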