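import Crest.Agent.N41.ES.Defs

-- ▼ part N41/ES/Basic
section

/-!
# Row 41, part B: the averaging operators and Möbius inversion on the cube
-/

set_option autoImplicit false
open Finset
open scoped BigOperators

namespace Crest.Agent.N41.ES

/-! ### Möbius inversion on the cube -/
section Mob
variable {ι : Type} [DecidableEq ι]

/-- the Möbius transform on the cube -/
noncomputable def mob (a : Finset ι → ℝ) (T : Finset ι) : ℝ :=
  ∑ U ∈ T.powerset, (-1 : ℝ) ^ (T \ U).card * a U

lemma mob_empty (a : Finset ι → ℝ) : mob a ∅ = a ∅ := by simp [mob]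

lemma mob_insert (a : Finset ι → ℝ) {i : ι} {T : Finset ι} (hi : i ∉ T) :
    mob a (insert i T) = mob (fun U => a (insert i U)) T - mob a T := by
  unfold mob
  rw [Finset.sum_powerset_insert hi, sub_eq_neg_add, ← Finset.sum_neg_distrib]
  congr 1
  · refine Finset.sum_congr rfl fun U hU => ?_
    have hU' : i ∉ U := fun h => hi (Finset.mem_powerset.1 hU h)
    have : insert i T \ U = insert i (T \ U) := Finset.insert_sdiff_of_notMem _ hU'
    rw [this, Finset.card_insert_of_notMem (by simp [hi])]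
    ring
  · refine Finset.sum_congr rfl fun U hU => ?_
    have : insert i T \ insert i U = T \ U := by
      ext j; simp only [Finset.mem_sdiff, Finset.mem_insert]
      constructor
      · rintro ⟨h1 | h1, h2⟩
        · exact absurd (Or.inl h1) h2
        · exact ⟨h1, fun h => h2 (Or.inr h)⟩
      · rintro ⟨h1, h2⟩
        exact ⟨Or.inr h1, fun h => h.elim (fun h => hi (h ▸ h1)) h2⟩
    rw [this]

lemma mob_congr {a b : Finset ι → ℝ} {T : Finset ι} (h : ∀ U ⊆ T, a U = b U) :
    mob a T = mob b T :=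
  Finset.sum_congr rfl fun U hU => by rw [h U (Finset.mem_powerset.1 hU)]

lemma mob_sub (a b : Finset ι → ℝ) (T : Finset ι) :
    mob (fun U => a U - b U) T = mob a T - mob b T := by
  simp only [mob, mul_sub, Finset.sum_sub_distrib]

lemma mob_mul_const (a : Finset ι → ℝ) (c : ℝ) (T : Finset ι) :
    mob (fun U => a U * c) T = mob a T * c := by
  simp only [mob, Finset.sum_mul, mul_assoc]

lemma sum_mob (S : Finset ι) : ∀ a : Finset ι → ℝ, ∑ T ∈ S.powerset, mob a T = a S := by
  induction S using Finset.induction_on with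
  | empty => intro a; simp [mob_empty]
  | insert i S hi ih =>
    intro a
    rw [Finset.sum_powerset_insert hi, ← Finset.sum_add_distrib, ← ih fun U => a (insert i U)]
    refine Finset.sum_congr rfl fun T hT => ?_
    rw [mob_insert a fun h => hi (Finset.mem_powerset.1 hT h)]
    ring

lemma mob_sum (T : Finset ι) :
    ∀ b : Finset ι → ℝ, mob (fun W => ∑ U ∈ W.powerset, b U) T = b T := by
  induction T using Finset.induction_on with
  | empty => intro b; simp [mob_empty]
  | insert i T hi ih =>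
    intro b
    rw [mob_insert _ hi, ← mob_sub, ← ih fun U => b (insert i U)]
    refine mob_congr fun U hU => ?_
    rw [Finset.sum_powerset_insert fun h => hi (hU h)]
    ring

lemma mob_ite_subset (U T : Finset ι) :
    mob (fun W => if U ⊆ W then 1 else 0) T = if T = U then 1 else 0 := by
  rw [← mob_sum T fun W => if W = U then 1 else 0]
  refine mob_congr fun W _ => ?_
  simp [Finset.sum_ite_eq', Finset.mem_powerset]

lemma mob_union {U T : Finset ι} (h : Disjoint U T) :
    ∀ a : Finset ι → ℝ, mob a (U ∪ T) = mob (fun W => mob (fun T' => a (W ∪ T')) T) U := by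
  induction U using Finset.induction_on with
  | empty => intro a; simp [mob_empty]
  | insert i U hi ih =>
    intro a
    rw [Finset.disjoint_insert_left] at h
    rw [Finset.insert_union, mob_insert _ (by simp [hi, h.1]), mob_insert _ hi, ih h.2, ih h.2]
    simp only [Finset.insert_union]

end Mob

section Avg
variable {ι : Type} [Fintype ι] [DecidableEq ι] {V : ι → Type} [∀ i, Fintype (V i)]

omit [Fintype ι] [∀ i, Fintype (V i)] in
lemma pw_pw (S : Finset ι) (x y : ∀ i, V i) :
    S.piecewise (S.piecewise x y) (S.piecewise y x) = x := by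
  funext i; by_cases h : i ∈ S <;> simp [Finset.piecewise, h]

/-- the swap lemma -/
lemma expect_swap (S : Finset ι) (Φ : (∀ i, V i) → (∀ i, V i) → ℝ) :
    𝔼 x : ∀ i, V i, 𝔼 y : ∀ i, V i, Φ (S.piecewise y x) (S.piecewise x y) =
      𝔼 x : ∀ i, V i, 𝔼 y : ∀ i, V i, Φ x y := by
  rw [← Finset.expect_product', ← Finset.expect_product', Finset.univ_product_univ]
  let σ : ((∀ i, V i) × (∀ i, V i)) → ((∀ i, V i) × (∀ i, V i)) :=
    fun z => (S.piecewise z.2 z.1, S.piecewise z.1 z.2)
  have hσ : Function.Involutive σ := fun z => by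
    simp only [σ, pw_pw]
  exact Fintype.expect_bijective σ hσ.bijective _ _ fun z => rfl

variable [∀ i, Nonempty (V i)]

lemma expect_piecewise (S : Finset ι) (φ : (∀ i, V i) → ℝ) :
    𝔼 x : ∀ i, V i, 𝔼 y : ∀ i, V i, φ (S.piecewise y x) = 𝔼 x, φ x := by
  rw [expect_swap S fun x _ => φ x]
  simp only [Fintype.expect_const]

lemma expect_avg (S : Finset ι) (f : (∀ i, V i) → ℝ) : 𝔼 x, avg S f x = 𝔼 x, f x :=
  expect_piecewise S f

lemma avg_avg (S T : Finset ι) (f : (∀ i, V i) → ℝ) : avg S (avg T f) = avg (S ∪ T) f := by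
  funext x
  unfold avg
  rw [← expect_piecewise T fun w => f ((S ∪ T).piecewise w x)]
  refine Finset.expect_congr rfl fun y _ => Finset.expect_congr rfl fun z _ => ?_
  congr 1
  funext i
  by_cases h1 : i ∈ S <;> by_cases h2 : i ∈ T <;> simp [Finset.piecewise, h1, h2]

lemma avg_comm (S T : Finset ι) (f : (∀ i, V i) → ℝ) : avg S (avg T f) = avg T (avg S f) := by
  rw [avg_avg, avg_avg, Finset.union_comm]

lemma avg_idem (S : Finset ι) (f : (∀ i, V i) → ℝ) : avg S (avg S f) = avg S f := by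
  rw [avg_avg, Finset.union_self]

lemma avg_empty (f : (∀ i, V i) → ℝ) : avg ∅ f = f := by
  funext x; simp [avg]


lemma avg_insert (i : ι) (S : Finset ι) (f : (∀ i, V i) → ℝ) :
    avg (insert i S) f = avg {i} (avg S f) := by
  rw [avg_avg]; rfl

omit [∀ i, Nonempty (V i)]

lemma avg_univ (f : (∀ i, V i) → ℝ) : avg univ f = fun _ => 𝔼 y, f y := by
  funext x; simp [avg]

/-- `avg S` is self-adjoint -/
lemma expect_mul_avg (S : Finset ι) (f g : (∀ i, V i) → ℝ) :
    𝔼 x, f x * avg S g x = 𝔼 x, avg S f x * g x := by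
  unfold avg
  simp only [Finset.mul_expect, Finset.expect_mul]
  rw [← expect_swap S fun x y => f (S.piecewise y x) * g x]
  simp only [pw_pw]

lemma avg_add (S : Finset ι) (f g : (∀ i, V i) → ℝ) :
    avg S (fun x => f x + g x) = fun x => avg S f x + avg S g x := by
  funext x; simp only [avg, Finset.expect_add_distrib]

lemma avg_sub (S : Finset ι) (f g : (∀ i, V i) → ℝ) :
    avg S (fun x => f x - g x) = fun x => avg S f x - avg S g x := by
  funext x; simp only [avg, Finset.expect_sub_distrib]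

lemma avg_smul (S : Finset ι) (c : ℝ) (f : (∀ i, V i) → ℝ) :
    avg S (fun x => c * f x) = fun x => c * avg S f x := by
  funext x; simp only [avg, Finset.mul_expect]

lemma avg_zero (S : Finset ι) : avg S (fun _ : ∀ i, V i => (0 : ℝ)) = fun _ => 0 := by
  funext x; simp [avg]

lemma avg_sum {κ : Type*} (S : Finset ι) (s : Finset κ) (f : κ → (∀ i, V i) → ℝ) :
    avg S (fun x => ∑ k ∈ s, f k x) = fun x => ∑ k ∈ s, avg S (f k) x := by
  funext x; simp only [avg]; rw [Finset.expect_sum_comm]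

lemma avg_mono (S : Finset ι) {f g : (∀ i, V i) → ℝ} (h : ∀ x, f x ≤ g x) (x : ∀ i, V i) :
    avg S f x ≤ avg S g x := Finset.expect_le_expect fun _ _ => h _

lemma avg_nonneg (S : Finset ι) {f : (∀ i, V i) → ℝ} (h : ∀ x, 0 ≤ f x) (x : ∀ i, V i) :
    0 ≤ avg S f x := Finset.expect_nonneg fun _ _ => h _


/-! ### dependence on coordinates -/

omit [Fintype ι] [DecidableEq ι] [∀ i, Fintype (V i)] in
lemma DepOn.mono {S T : Finset ι} {f : (∀ i, V i) → ℝ} (h : DepOn S f) (hST : S ⊆ T) :
    DepOn T f := fun x y hxy => h x y fun i hi => hxy i (hST hi)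

omit [Fintype ι] [DecidableEq ι] [∀ i, Fintype (V i)] in
lemma depOn_const (T : Finset ι) (c : ℝ) : DepOn T (fun _ : ∀ i, V i => c) := fun _ _ _ => rfl

omit [DecidableEq ι] [∀ i, Fintype (V i)] in
lemma depOn_univ (f : (∀ i, V i) → ℝ) : DepOn univ f :=
  fun _ _ h => congrArg f (funext fun i => h i (Finset.mem_univ i))

omit [Fintype ι] [DecidableEq ι] [∀ i, Fintype (V i)] in
lemma DepOn.comp {T : Finset ι} {f : (∀ i, V i) → ℝ} (h : DepOn T f) (φ : ℝ → ℝ) :
    DepOn T fun x => φ (f x) := fun x y hxy => by simp only [h x y hxy]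

omit [Fintype ι] [DecidableEq ι] [∀ i, Fintype (V i)] in
lemma DepOn.comp₂ {T : Finset ι} {f g : (∀ i, V i) → ℝ} (hf : DepOn T f) (hg : DepOn T g)
    (φ : ℝ → ℝ → ℝ) : DepOn T fun x => φ (f x) (g x) :=
  fun x y hxy => by simp only [hf x y hxy, hg x y hxy]

omit [Fintype ι] [∀ i, Fintype (V i)] in
lemma DepOn.mul {S T : Finset ι} {f g : (∀ i, V i) → ℝ} (hf : DepOn S f) (hg : DepOn T g) :
    DepOn (S ∪ T) fun x => f x * g x :=
  (hf.mono Finset.subset_union_left).comp₂ (hg.mono Finset.subset_union_right) (· * ·)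

omit [Fintype ι] [DecidableEq ι] [∀ i, Fintype (V i)] in
lemma DepOn.sum {κ : Type*} {T : Finset ι} {s : Finset κ} {f : κ → (∀ i, V i) → ℝ}
    (h : ∀ k ∈ s, DepOn T (f k)) : DepOn T fun x => ∑ k ∈ s, f k x :=
  fun x y hxy => Finset.sum_congr rfl fun k hk => h k hk x y hxy

lemma DepOn.avg {T : Finset ι} {f : (∀ i, V i) → ℝ} (h : DepOn T f) (S : Finset ι) :
    DepOn (T \ S) (avg S f) := by
  intro x y hxy
  refine Finset.expect_congr rfl fun z _ => h _ _ fun i hi => ?_
  by_cases hS : i ∈ S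
  · simp [Finset.piecewise, hS]
  · simp [Finset.piecewise, hS, hxy i (Finset.mem_sdiff.2 ⟨hi, hS⟩)]

lemma depOn_avg (S : Finset ι) (f : (∀ i, V i) → ℝ) : DepOn Sᶜ (avg S f) := by
  have := (depOn_univ f).avg S
  rwa [← Finset.compl_eq_univ_sdiff] at this

omit [Fintype ι] [∀ i, Fintype (V i)] in
lemma DepOn.piecewise {T S : Finset ι} {f : (∀ i, V i) → ℝ} (h : DepOn T f) (hd : Disjoint T S)
    (x y : ∀ i, V i) : f (S.piecewise y x) = f x :=
  h _ _ fun i hi => by simp [Finset.piecewise, Finset.disjoint_left.1 hd hi]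

lemma avg_mul_left {T S : Finset ι} {f : (∀ i, V i) → ℝ} (h : DepOn T f) (hd : Disjoint T S)
    (g : (∀ i, V i) → ℝ) : avg S (fun x => f x * g x) = fun x => f x * avg S g x := by
  funext x
  simp only [avg, Finset.mul_expect, h.piecewise hd]

lemma avg_mul_right {T S : Finset ι} {g : (∀ i, V i) → ℝ} (h : DepOn T g) (hd : Disjoint T S)
    (f : (∀ i, V i) → ℝ) : avg S (fun x => f x * g x) = fun x => avg S f x * g x := by
  funext x
  simp only [avg, Finset.expect_mul, h.piecewise hd]

lemma DepOn.avg_eq [∀ i, Nonempty (V i)] {T S : Finset ι} {f : (∀ i, V i) → ℝ} (h : DepOn T f)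
    (hd : Disjoint T S) : ES.avg S f = f := by
  funext x
  simp only [ES.avg, h.piecewise hd, Fintype.expect_const]




/-! ### restrictions -/

omit [∀ i, Fintype (V i)] in
lemma depOn_res (S : Finset ι) (s : ∀ i, V i) (f : (∀ i, V i) → ℝ) : DepOn Sᶜ (res S s f) := by
  intro x y hxy
  unfold res
  congr 1
  funext i
  by_cases hS : i ∈ S
  · simp [Finset.piecewise, hS]
  · simp [Finset.piecewise, hS, hxy i (Finset.mem_compl.2 hS)]

lemma avg_compl_eq (S : Finset ι) (f : (∀ i, V i) → ℝ) (x : ∀ i, V i) :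
    avg Sᶜ f x = 𝔼 y, res S x f y := by
  simp only [avg, res, Finset.piecewise_compl]



/-! ### coordinatewise bijections -/

lemma expect_comp_equiv {V' : ι → Type} [∀ i, Fintype (V' i)] (e : ∀ i, V i ≃ V' i)
    (f : (∀ i, V' i) → ℝ) : 𝔼 x : ∀ i, V i, f (fun i => e i (x i)) = 𝔼 x, f x :=
  Fintype.expect_equiv (Equiv.piCongrRight e) _ _ fun _ => rfl

lemma avg_comp_equiv {V' : ι → Type} [∀ i, Fintype (V' i)] (e : ∀ i, V i ≃ V' i)
    (S : Finset ι) (f : (∀ i, V' i) → ℝ) :
    avg S (fun x : ∀ i, V i => f fun i => e i (x i)) = fun x => avg S f fun i => e i (x i) := by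
  funext x
  unfold avg
  rw [← expect_comp_equiv e fun y => f (S.piecewise y fun i => e i (x i))]
  refine Finset.expect_congr rfl fun y _ => congrArg f ?_
  funext i
  by_cases h : i ∈ S <;> simp [Finset.piecewise, h]

end Avg

end Crest.Agent.N41.ES
end

-- ▼ part N41/ES/Op

/-!
# Row 41, part B: Efron–Stein parts and the multiplier calculus

`op m f = ∑_U m U • f^{=U}`.  All the operators (`avg`, `es`, `proj`) are multipliers, and
`op m (op m' f) = op (m m') f`.
-/

set_option autoImplicit false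
open Finset
open scoped BigOperators

namespace Crest.Agent.N41.ES

variable {ι : Type} [Fintype ι] [DecidableEq ι] {V : ι → Type} [∀ i, Fintype (V i)]

/-- the Efron–Stein multiplier with symbol `m` -/
noncomputable def op (m : Finset ι → ℝ) (f : (∀ i, V i) → ℝ) : (∀ i, V i) → ℝ :=
  fun x => ∑ U, m U * es U f x

lemma disjoint_compl_iff {U W : Finset ι} : Disjoint U Wᶜ ↔ U ⊆ W := by
  rw [← Finset.subset_compl_iff_disjoint_right, compl_compl]

lemma es_eq_mob (T : Finset ι) (f : (∀ i, V i) → ℝ) (x : ∀ i, V i) :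
    es T f x = mob (fun U => avg Uᶜ f x) T := rfl

lemma es_empty (f : (∀ i, V i) → ℝ) : es ∅ f = fun _ => 𝔼 y, f y := by
  funext x; rw [es_eq_mob, mob_empty, Finset.compl_empty, avg_univ]

lemma es_add (T : Finset ι) (f g : (∀ i, V i) → ℝ) :
    es T (fun x => f x + g x) = fun x => es T f x + es T g x := by
  funext x; simp only [es, avg_add, mul_add, Finset.sum_add_distrib]


lemma es_smul (T : Finset ι) (c : ℝ) (f : (∀ i, V i) → ℝ) :
    es T (fun x => c * f x) = fun x => c * es T f x := by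
  funext x; simp only [es, avg_smul, Finset.mul_sum]
  exact Finset.sum_congr rfl fun _ _ => by ring

lemma es_zero (T : Finset ι) : es T (fun _ : ∀ i, V i => (0 : ℝ)) = fun _ => 0 := by
  funext x; simp [es, avg_zero]

lemma es_sum {κ : Type*} (T : Finset ι) (s : Finset κ) (f : κ → (∀ i, V i) → ℝ) :
    es T (fun x => ∑ k ∈ s, f k x) = fun x => ∑ k ∈ s, es T (f k) x := by
  funext x; simp only [es, avg_sum, Finset.mul_sum]; rw [Finset.sum_comm]

lemma depOn_es (T : Finset ι) (f : (∀ i, V i) → ℝ) : DepOn T (es T f) := by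
  refine DepOn.sum fun U hU => ?_
  have h := depOn_avg Uᶜ f
  rw [compl_compl] at h
  exact (h.mono (Finset.mem_powerset.1 hU)).comp fun t => (-1 : ℝ) ^ (T \ U).card * t

lemma sum_es_powerset (S : Finset ι) (f : (∀ i, V i) → ℝ) (x : ∀ i, V i) :
    ∑ T ∈ S.powerset, es T f x = avg Sᶜ f x := sum_mob S fun U => avg Uᶜ f x

/-- `es T` is self-adjoint -/
lemma expect_mul_es (T : Finset ι) (f g : (∀ i, V i) → ℝ) :
    𝔼 x, f x * es T g x = 𝔼 x, es T f x * g x := by
  simp only [es, Finset.mul_sum, Finset.sum_mul]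
  rw [Finset.expect_sum_comm, Finset.expect_sum_comm]
  refine Finset.sum_congr rfl fun U _ => ?_
  have := expect_mul_avg Uᶜ f g
  simp only [mul_left_comm (f _), mul_assoc, ← Finset.mul_expect, this]

lemma es_comp_equiv {V' : ι → Type} [∀ i, Fintype (V' i)] (e : ∀ i, V i ≃ V' i)
    (T : Finset ι) (f : (∀ i, V' i) → ℝ) :
    es T (fun x : ∀ i, V i => f fun i => e i (x i)) = fun x => es T f fun i => e i (x i) := by
  funext x; simp only [es, avg_comp_equiv e]


lemma proj_comp_equiv {V' : ι → Type} [∀ i, Fintype (V' i)] (e : ∀ i, V i ≃ V' i)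
    (F : Finset (Finset ι)) (f : (∀ i, V' i) → ℝ) :
    proj F (fun x : ∀ i, V i => f fun i => e i (x i)) = fun x => proj F f fun i => e i (x i) := by
  funext x; simp only [proj, es_comp_equiv e]

lemma proj_eq_op (F : Finset (Finset ι)) (f : (∀ i, V i) → ℝ) :
    proj F f = op (fun U => if U ∈ F then 1 else 0) f := by
  funext x; simp [proj, op, Finset.sum_ite_mem]


lemma op_add (m : Finset ι → ℝ) (f g : (∀ i, V i) → ℝ) :
    op m (fun x => f x + g x) = fun x => op m f x + op m g x := by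
  funext x; simp only [op, es_add, mul_add, Finset.sum_add_distrib]


lemma op_smul (m : Finset ι → ℝ) (c : ℝ) (f : (∀ i, V i) → ℝ) :
    op m (fun x => c * f x) = fun x => c * op m f x := by
  funext x; simp only [op, es_smul, Finset.mul_sum]
  exact Finset.sum_congr rfl fun _ _ => by ring

lemma op_sum {κ : Type*} (m : Finset ι → ℝ) (s : Finset κ) (f : κ → (∀ i, V i) → ℝ) :
    op m (fun x => ∑ k ∈ s, f k x) = fun x => ∑ k ∈ s, op m (f k) x := by
  funext x; simp only [op, es_sum, Finset.mul_sum]; rw [Finset.sum_comm]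

lemma op_symbol_add (m m' : Finset ι → ℝ) (f : (∀ i, V i) → ℝ) :
    op (fun U => m U + m' U) f = fun x => op m f x + op m' f x := by
  funext x; simp only [op, add_mul, Finset.sum_add_distrib]



lemma proj_add (F : Finset (Finset ι)) (f g : (∀ i, V i) → ℝ) :
    proj F (fun x => f x + g x) = fun x => proj F f x + proj F g x := by
  simp only [proj_eq_op, op_add]

lemma proj_smul (F : Finset (Finset ι)) (c : ℝ) (f : (∀ i, V i) → ℝ) :
    proj F (fun x => c * f x) = fun x => c * proj F f x := by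
  simp only [proj_eq_op, op_smul]

lemma proj_sum {κ : Type*} (F : Finset (Finset ι)) (s : Finset κ) (f : κ → (∀ i, V i) → ℝ) :
    proj F (fun x => ∑ k ∈ s, f k x) = fun x => ∑ k ∈ s, proj F (f k) x := by
  simp only [proj_eq_op, op_sum]

lemma proj_sdiff {F G : Finset (Finset ι)} (h : G ⊆ F) (f : (∀ i, V i) → ℝ) (x : ∀ i, V i) :
    proj F f x = proj G f x + proj (F \ G) f x := by
  simp only [proj]; rw [← Finset.sum_sdiff h, add_comm]

lemma expect_mul_op (m : Finset ι → ℝ) (f g : (∀ i, V i) → ℝ) :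
    𝔼 x, f x * op m g x = 𝔼 x, op m f x * g x := by
  simp only [op, Finset.mul_sum, Finset.sum_mul]
  rw [Finset.expect_sum_comm, Finset.expect_sum_comm]
  refine Finset.sum_congr rfl fun U _ => ?_
  have := expect_mul_es U f g
  simp only [mul_left_comm (f _), mul_assoc, ← Finset.mul_expect, this]

lemma expect_mul_proj (F : Finset (Finset ι)) (f g : (∀ i, V i) → ℝ) :
    𝔼 x, f x * proj F g x = 𝔼 x, proj F f x * g x := by
  simp only [proj_eq_op, expect_mul_op]

variable [∀ i, Nonempty (V i)]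

lemma sum_es (f : (∀ i, V i) → ℝ) (x : ∀ i, V i) : ∑ T, es T f x = f x := by
  have := sum_es_powerset univ f x
  rwa [Finset.powerset_univ, Finset.compl_univ, avg_empty] at this

lemma op_one (f : (∀ i, V i) → ℝ) : op (fun _ => 1) f = f := by
  funext x; simp only [op, one_mul, sum_es]

lemma avg_es_comm (S T : Finset ι) (f : (∀ i, V i) → ℝ) : avg S (es T f) = es T (avg S f) := by
  funext x
  unfold es
  rw [avg_sum]
  simp only [avg_smul, avg_comm S]

lemma avg_single_es {i : ι} {T : Finset ι} (hi : i ∈ T) (f : (∀ i, V i) → ℝ) :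
    avg {i} (es T f) = fun _ => 0 := by
  funext x
  rw [avg_es_comm, es_eq_mob, ← Finset.insert_erase hi, mob_insert _ (Finset.notMem_erase i T),
    sub_eq_zero]
  refine mob_congr fun U hU => ?_
  have hU' : i ∉ U := fun h => Finset.notMem_erase i T (hU h)
  rw [avg_avg, avg_avg]
  congr 1
  ext j
  by_cases hj : j = i <;> simp [hj]

lemma avg_es (S T : Finset ι) (f : (∀ i, V i) → ℝ) :
    avg S (es T f) = if Disjoint T S then es T f else fun _ => 0 := by
  split_ifs with h
  · exact (depOn_es T f).avg_eq h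
  · obtain ⟨i, hiT, hiS⟩ := Finset.not_disjoint_iff.1 h
    have : S = S ∪ {i} := by simp [hiS]
    rw [this, ← avg_avg, avg_single_es hiT, avg_zero]

lemma es_es (T U : Finset ι) (f : (∀ i, V i) → ℝ) :
    es T (es U f) = if T = U then es U f else fun _ => 0 := by
  funext x
  have h1 : es T (es U f) x = mob (fun W => (if U ⊆ W then 1 else 0) * es U f x) T := by
    rw [es_eq_mob]
    refine mob_congr fun W _ => ?_
    rw [avg_es]
    by_cases hW : U ⊆ W
    · rw [if_pos (disjoint_compl_iff.2 hW), if_pos hW, one_mul]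
    · rw [if_neg (mt disjoint_compl_iff.1 hW), if_neg hW, zero_mul]
  rw [h1, mob_mul_const, mob_ite_subset]
  split_ifs <;> simp

lemma es_op (T : Finset ι) (m : Finset ι → ℝ) (f : (∀ i, V i) → ℝ) :
    es T (op m f) = fun x => m T * es T f x := by
  unfold op
  rw [es_sum]
  funext x
  simp only [es_smul, es_es]
  rw [Finset.sum_eq_single T]
  · simp
  · intro U _ hU; simp [Ne.symm hU]
  · simp

lemma op_op (m m' : Finset ι → ℝ) (f : (∀ i, V i) → ℝ) :
    op m (op m' f) = op (fun U => m U * m' U) f := by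
  funext x
  conv_lhs => unfold op
  simp only [show (fun x => ∑ U, m' U * es U f x) = op m' f from rfl, es_op]
  simp only [op, mul_assoc]

omit [∀ i, Nonempty (V i)] in
lemma avg_eq_op (S : Finset ι) (f : (∀ i, V i) → ℝ) :
    avg S f = op (fun U => if Disjoint U S then 1 else 0) f := by
  funext x
  have := sum_es_powerset Sᶜ f x
  rw [compl_compl] at this
  rw [← this]
  simp only [op, ite_mul, one_mul, zero_mul]
  rw [← Finset.sum_filter]
  refine Finset.sum_congr ?_ fun _ _ => rfl
  ext U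
  simp [Finset.subset_compl_iff_disjoint_right]

lemma avg_op (S : Finset ι) (m : Finset ι → ℝ) (f : (∀ i, V i) → ℝ) :
    avg S (op m f) = op (fun U => if Disjoint U S then m U else 0) f := by
  rw [avg_eq_op, op_op]; simp only [ite_mul, one_mul, zero_mul]

lemma op_avg (S : Finset ι) (m : Finset ι → ℝ) (f : (∀ i, V i) → ℝ) :
    op m (avg S f) = op (fun U => if Disjoint U S then m U else 0) f := by
  rw [avg_eq_op, op_op]; simp only [mul_ite, mul_one, mul_zero]

lemma avg_op_comm (S : Finset ι) (m : Finset ι → ℝ) (f : (∀ i, V i) → ℝ) :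
    avg S (op m f) = op m (avg S f) := by rw [avg_op, op_avg]


lemma es_proj (T : Finset ι) (F : Finset (Finset ι)) (f : (∀ i, V i) → ℝ) :
    es T (proj F f) = if T ∈ F then es T f else fun _ => 0 := by
  rw [proj_eq_op, es_op]; split_ifs <;> simp

lemma op_proj (m : Finset ι → ℝ) (F : Finset (Finset ι)) (f : (∀ i, V i) → ℝ) :
    op m (proj F f) = op (fun U => if U ∈ F then m U else 0) f := by
  rw [proj_eq_op, op_op]; simp only [mul_ite, mul_one, mul_zero]

lemma proj_proj (F G : Finset (Finset ι)) (f : (∀ i, V i) → ℝ) :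
    proj F (proj G f) = proj (F ∩ G) f := by
  rw [proj_eq_op, op_proj, proj_eq_op]
  congr 1; funext U
  by_cases h1 : U ∈ F <;> by_cases h2 : U ∈ G <;> simp [h1, h2]

lemma DepOn.es_eq_zero {W T : Finset ι} {f : (∀ i, V i) → ℝ} (h : DepOn W f) (hT : ¬ T ⊆ W) :
    es T f = fun _ => 0 := by
  rw [← h.avg_eq disjoint_compl_right, ← avg_es_comm, avg_es, if_neg (mt disjoint_compl_iff.1 hT)]

lemma DepOn.op_congr {W : Finset ι} {f : (∀ i, V i) → ℝ} (h : DepOn W f) {m m' : Finset ι → ℝ}
    (hm : ∀ U ⊆ W, m U = m' U) : op m f = op m' f := by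
  funext x
  refine Finset.sum_congr rfl fun U _ => ?_
  by_cases hU : U ⊆ W
  · rw [hm U hU]
  · simp [h.es_eq_zero hU]

omit [∀ i, Nonempty (V i)] in
lemma depOn_op {W : Finset ι} {m : Finset ι → ℝ} (hm : ∀ U, ¬ U ⊆ W → m U = 0)
    (f : (∀ i, V i) → ℝ) : DepOn W (op m f) := by
  refine DepOn.sum fun U _ => ?_
  by_cases hU : U ⊆ W
  · exact ((depOn_es U f).mono hU).comp fun t => m U * t
  · simp only [hm U hU, zero_mul]; exact depOn_const W 0

lemma DepOn.op {W : Finset ι} {f : (∀ i, V i) → ℝ} (h : DepOn W f) (m : Finset ι → ℝ) :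
    DepOn W (ES.op m f) := by
  rw [h.op_congr (m' := fun U => if U ⊆ W then m U else 0) fun U hU => by simp [hU]]
  exact depOn_op (fun U hU => by simp [hU]) f

lemma DepOn.proj {W : Finset ι} {f : (∀ i, V i) → ℝ} (h : DepOn W f) (F : Finset (Finset ι)) :
    DepOn W (ES.proj F f) := by rw [proj_eq_op]; exact h.op _

/-! ### orthogonality and Parseval -/

lemma expect_es_mul_es (T U : Finset ι) (f g : (∀ i, V i) → ℝ) :
    𝔼 x, es T f x * es U g x = if T = U then 𝔼 x, es T f x * es T g x else 0 := by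
  split_ifs with h
  · rw [h]
  · rw [← expect_mul_es, es_es, if_neg h]; simp

lemma expect_op_mul_op (m m' : Finset ι → ℝ) (f g : (∀ i, V i) → ℝ) :
    𝔼 x, op m f x * op m' g x = ∑ U, m U * m' U * 𝔼 x, es U f x * es U g x := by
  simp only [op, Finset.sum_mul_sum]
  rw [Finset.expect_sum_comm]
  refine Finset.sum_congr rfl fun U _ => ?_
  rw [Finset.expect_sum_comm, Finset.sum_eq_single U]
  · rw [Finset.mul_expect]; exact Finset.expect_congr rfl fun x _ => by ring
  · intro W _ hW
    have := expect_es_mul_es U W f g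
    rw [if_neg (Ne.symm hW)] at this
    rw [← mul_zero (m U * m' W), ← this, Finset.mul_expect]
    exact Finset.expect_congr rfl fun x _ => by ring
  · simp

lemma parseval_op (m : Finset ι → ℝ) (f : (∀ i, V i) → ℝ) :
    𝔼 x, op m f x ^ 2 = ∑ U, m U ^ 2 * 𝔼 x, es U f x ^ 2 := by
  simp only [sq, expect_op_mul_op]

lemma parseval (f : (∀ i, V i) → ℝ) : 𝔼 x, f x ^ 2 = ∑ U, 𝔼 x, es U f x ^ 2 := by
  have := parseval_op (fun _ => 1) f
  simpa [op_one] using this

lemma parseval_proj (F : Finset (Finset ι)) (f : (∀ i, V i) → ℝ) :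
    𝔼 x, proj F f x ^ 2 = ∑ U ∈ F, 𝔼 x, es U f x ^ 2 := by
  rw [proj_eq_op, parseval_op]
  simp [Finset.sum_ite_mem]

omit [∀ i, Nonempty (V i)] in
lemma expect_sq_nonneg (f : (∀ i, V i) → ℝ) : 0 ≤ 𝔼 x, f x ^ 2 :=
  Finset.expect_nonneg fun _ _ => sq_nonneg _


/-- a multiplier bounded by `c` on `F` and vanishing off `F` -/
lemma expect_sq_op_le_proj {m : Finset ι → ℝ} {F : Finset (Finset ι)} {c : ℝ}
    (h0 : ∀ U, U ∉ F → m U = 0) (h : ∀ U ∈ F, m U ^ 2 ≤ c) (f : (∀ i, V i) → ℝ) :
    𝔼 x, op m f x ^ 2 ≤ c * 𝔼 x, proj F f x ^ 2 := by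
  rw [parseval_op, parseval_proj, Finset.mul_sum,
    ← Finset.sum_subset (Finset.subset_univ F) fun U _ hU => by simp [h0 U hU]]
  exact Finset.sum_le_sum fun U hU => mul_le_mul_of_nonneg_right (h U hU) (expect_sq_nonneg _)


lemma expect_sq_proj_le (F : Finset (Finset ι)) (f : (∀ i, V i) → ℝ) :
    𝔼 x, proj F f x ^ 2 ≤ 𝔼 x, f x ^ 2 := by
  rw [parseval_proj, parseval f]
  exact Finset.sum_le_sum_of_subset_of_nonneg (Finset.subset_univ F) fun _ _ _ => expect_sq_nonneg _

lemma expect_es (T : Finset ι) (f : (∀ i, V i) → ℝ) :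
    𝔼 x, es T f x = if T = ∅ then 𝔼 x, f x else 0 := by
  have h := expect_avg univ (es T f)
  rw [← h, avg_es]
  by_cases hT : T = ∅
  · subst hT; simp [es_empty]
  · have : ¬ Disjoint T univ := by
      rw [← Finset.compl_empty, disjoint_compl_iff]; simpa using hT
    simp [hT, this]

lemma expect_op (m : Finset ι → ℝ) (f : (∀ i, V i) → ℝ) : 𝔼 x, op m f x = m ∅ * 𝔼 x, f x := by
  unfold op
  rw [Finset.expect_sum_comm]
  simp only [← Finset.mul_expect, expect_es]
  simp

lemma expect_proj {F : Finset (Finset ι)} (hF : ∅ ∈ F) (f : (∀ i, V i) → ℝ) :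
    𝔼 x, proj F f x = 𝔼 x, f x := by
  rw [proj_eq_op, expect_op]; simp [hF]

lemma expect_proj_mul_self (F : Finset (Finset ι)) (f : (∀ i, V i) → ℝ) :
    𝔼 x, proj F f x * f x = 𝔼 x, proj F f x ^ 2 := by
  conv_lhs => rw [← Finset.inter_self F, ← proj_proj, ← expect_mul_proj]
  simp only [sq]

end Crest.Agent.N41.ES
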